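import Mathlib.Combinatorics.SetFamily.FourFunctions
import Mathlib.Tactic

/-!
Independent bits on a finite set of edges: thinning, monotonicity in the probabilities, Harris.
-/

open Finset

namespace Vale.Agent.P159.TM.H426

variable {E : Type*} [Fintype E] [DecidableEq E]

/-- the weight of the set `S` of open edges: `o e` if `e` is open, `c e` if `e` is closed -/
def bw (o c : E → ℝ) (S : Finset E) : ℝ := (∏ e ∈ S, o e) * ∏ e ∈ Sᶜ, c e

lemma bw_ite (o c : E → ℝ) (S : Finset E) : bw o c S = ∏ e, if e ∈ S then o e else c e := by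
  unfold bw
  rw [← Finset.prod_mul_prod_compl S fun e => if e ∈ S then o e else c e]
  congr 1
  · exact Finset.prod_congr rfl fun e he => by rw [if_pos he]
  · exact Finset.prod_congr rfl fun e he => by rw [if_neg (Finset.mem_compl.1 he)]

lemma bw_nonneg {o c : E → ℝ} (ho : ∀ e, 0 ≤ o e) (hc : ∀ e, 0 ≤ c e) (S : Finset E) :
    0 ≤ bw o c S :=
  mul_nonneg (Finset.prod_nonneg fun e _ => ho e) (Finset.prod_nonneg fun e _ => hc e)

/-- total weight -/
lemma sum_bw (o c : E → ℝ) : ∑ S : Finset E, bw o c S = ∏ e, (o e + c e) := by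
  rw [Finset.prod_add]
  rw [Finset.powerset_univ]
  refine Finset.sum_congr rfl fun S _ => ?_
  unfold bw
  rw [Finset.compl_eq_univ_sdiff]

lemma sum_split (P : Finset E) (G : Finset E → ℝ) :
    ∑ S : Finset E, G S = ∑ T ∈ P.powerset, ∑ U ∈ Pᶜ.powerset, G (T ∪ U) := by
  rw [← Finset.sum_product']
  symm
  refine Finset.sum_nbij' (i := fun x : Finset E × Finset E => x.1 ∪ x.2)
    (j := fun S => (S ∩ P, S ∩ Pᶜ)) ?_ ?_ ?_ ?_ ?_
  · intro x _; exact Finset.mem_univ _
  · intro S _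
    rw [Finset.mem_product, Finset.mem_powerset, Finset.mem_powerset]
    exact ⟨Finset.inter_subset_right, Finset.inter_subset_right⟩
  · rintro ⟨T, U⟩ h
    rw [Finset.mem_product, Finset.mem_powerset, Finset.mem_powerset] at h
    obtain ⟨hT, hU⟩ := h
    refine Prod.ext ?_ ?_
    · ext e
      simp only [Finset.mem_inter, Finset.mem_union]
      constructor
      · rintro ⟨h1 | h1, h2⟩
        · exact h1
        · exact absurd h2 (Finset.mem_compl.1 (hU h1))
      · intro h1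
        exact ⟨Or.inl h1, hT h1⟩
    · ext e
      simp only [Finset.mem_inter, Finset.mem_union]
      constructor
      · rintro ⟨h1 | h1, h2⟩
        · exact absurd (hT h1) (Finset.mem_compl.1 h2)
        · exact h1
      · intro h1
        exact ⟨Or.inr h1, hU h1⟩
  · intro S _
    show (S ∩ P) ∪ (S ∩ Pᶜ) = S
    rw [← Finset.inter_union_distrib_left, Finset.union_compl, Finset.inter_univ]
  · intro x _; rfl

lemma bw_union (o c : E → ℝ) {P T U : Finset E} (hT : T ⊆ P) (hU : U ⊆ Pᶜ) :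
    bw o c (T ∪ U) = ((∏ e ∈ T, o e) * ∏ e ∈ P \ T, c e) *
      ((∏ e ∈ U, o e) * ∏ e ∈ Pᶜ \ U, c e) := by
  unfold bw
  have hd : Disjoint T U := Finset.disjoint_left.2 fun e h1 h2 =>
    Finset.mem_compl.1 (hU h2) (hT h1)
  have hd' : Disjoint (P \ T) (Pᶜ \ U) := Finset.disjoint_left.2 fun e h1 h2 =>
    Finset.mem_compl.1 (Finset.mem_sdiff.1 h2).1 (Finset.mem_sdiff.1 h1).1
  have hc : (T ∪ U)ᶜ = (P \ T) ∪ (Pᶜ \ U) := by
    ext e
    simp only [Finset.mem_compl, Finset.mem_union, Finset.mem_sdiff, not_or]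
    constructor
    · rintro ⟨h1, h2⟩
      by_cases h : e ∈ P
      · exact Or.inl ⟨h, h1⟩
      · exact Or.inr ⟨h, h2⟩
    · rintro (⟨h1, h2⟩ | ⟨h1, h2⟩)
      · exact ⟨h2, fun h => Finset.mem_compl.1 (hU h) h1⟩
      · exact ⟨fun h => h1 (hT h), h2⟩
  rw [Finset.prod_union hd, hc, Finset.prod_union hd']
  ring

/-- thinning: the bits outside `P` are forgotten -/
lemma thin (o c : E → ℝ) (P : Finset E) (f : Finset E → ℝ) :
    ∑ S : Finset E, bw o c S * f (S ∩ P) =
      ∑ S : Finset E, bw (fun e => if e ∈ P then o e else 0)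
        (fun e => if e ∈ P then c e else o e + c e) S * f S := by
  rw [sum_split P, sum_split P]
  refine Finset.sum_congr rfl fun T hT => ?_
  rw [Finset.mem_powerset] at hT
  have h1 : ∀ U ∈ Pᶜ.powerset, bw o c (T ∪ U) * f ((T ∪ U) ∩ P) =
      ((∏ e ∈ T, o e) * ∏ e ∈ P \ T, c e) * f T * ((∏ e ∈ U, o e) * ∏ e ∈ Pᶜ \ U, c e) := by
    intro U hU
    rw [Finset.mem_powerset] at hU
    have : (T ∪ U) ∩ P = T := by
      ext e
      simp only [Finset.mem_inter, Finset.mem_union]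
      constructor
      · rintro ⟨h1 | h1, h2⟩
        · exact h1
        · exact absurd h2 (Finset.mem_compl.1 (hU h1))
      · intro h1
        exact ⟨Or.inl h1, hT h1⟩
    rw [this, bw_union o c hT hU]
    ring
  rw [Finset.sum_congr rfl h1, ← Finset.mul_sum, ← Finset.prod_add]
  rw [Finset.sum_eq_single (∅ : Finset E)]
  · rw [Finset.union_empty, ← Finset.union_empty T, bw_union _ _ hT (Finset.empty_subset _),
      Finset.union_empty, Finset.prod_empty, one_mul, Finset.sdiff_empty]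
    have e1 : ∏ e ∈ T, (if e ∈ P then o e else 0) = ∏ e ∈ T, o e :=
      Finset.prod_congr rfl fun e he => if_pos (hT he)
    have e2 : ∏ e ∈ P \ T, (if e ∈ P then c e else o e + c e) = ∏ e ∈ P \ T, c e :=
      Finset.prod_congr rfl fun e he => if_pos (Finset.mem_sdiff.1 he).1
    have e3 : ∏ e ∈ Pᶜ, (if e ∈ P then c e else o e + c e) = ∏ e ∈ Pᶜ, (o e + c e) :=
      Finset.prod_congr rfl fun e he => if_neg (Finset.mem_compl.1 he)
    rw [e1, e2, e3]
    ring
  · intro U hU hne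
    rw [Finset.mem_powerset] at hU
    obtain ⟨e, he⟩ := Finset.nonempty_iff_ne_empty.2 hne
    rw [bw_union _ _ hT hU]
    have : ∏ e ∈ U, (if e ∈ P then o e else 0) = 0 :=
      Finset.prod_eq_zero he (if_neg (Finset.mem_compl.1 (hU he)))
    rw [this]
    ring
  · intro h
    exact absurd (Finset.empty_mem_powerset _) h

/-- the lattice condition for two product weights -/
lemma bw_lattice {o c o' c' : E → ℝ} (ho : ∀ e, 0 ≤ o e) (hc : ∀ e, 0 ≤ c e)
    (ho' : ∀ e, 0 ≤ o' e) (hc' : ∀ e, 0 ≤ c' e) (h : ∀ e, o e * c' e ≤ c e * o' e)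
    (S T : Finset E) : bw o c S * bw o' c' T ≤ bw o c (S ⊓ T) * bw o' c' (S ⊔ T) := by
  simp only [bw_ite]
  rw [← Finset.prod_mul_distrib, ← Finset.prod_mul_distrib]
  refine Finset.prod_le_prod (fun e _ => ?_) fun e _ => ?_
  · split_ifs <;> first | exact mul_nonneg (ho e) (ho' e) | exact mul_nonneg (ho e) (hc' e) | exact mul_nonneg (hc e) (ho' e) | exact mul_nonneg (hc e) (hc' e)
  · simp only [Finset.inf_eq_inter, Finset.sup_eq_union, Finset.mem_inter, Finset.mem_union]
    by_cases h1 : e ∈ S <;> by_cases h2 : e ∈ T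
    · simp [h1, h2]
    · simp [h1, h2]; exact h e
    · simp [h1, h2]
    · simp [h1, h2]

/-- Harris -/
lemma bw_harris {o c : E → ℝ} (ho : ∀ e, 0 ≤ o e) (hc : ∀ e, 0 ≤ c e) {f g : Finset E → ℝ}
    (f0 : ∀ S, 0 ≤ f S) (g0 : ∀ S, 0 ≤ g S) (hf : Monotone f) (hg : Monotone g) :
    (∑ S, bw o c S * f S) * (∑ S, bw o c S * g S) ≤
      (∑ S, bw o c S) * ∑ S, bw o c S * (f S * g S) :=
  fkg f g (fun S => bw o c S) (fun S => bw_nonneg ho hc S) f0 g0 hf hg
    (fun S T => bw_lattice ho hc ho hc (fun e => by rw [mul_comm]) S T)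

/-- monotonicity in the probabilities -/
lemma bw_mono {o c o' c' : E → ℝ} (ho : ∀ e, 0 ≤ o e) (hc : ∀ e, 0 ≤ c e)
    (ho' : ∀ e, 0 ≤ o' e) (hc' : ∀ e, 0 ≤ c' e) (h : ∀ e, o e * c' e ≤ c e * o' e)
    {f : Finset E → ℝ} (f0 : ∀ S, 0 ≤ f S) (hf : Monotone f) :
    (∑ S, bw o c S * f S) * (∏ e, (o' e + c' e)) ≤
      (∏ e, (o e + c e)) * ∑ S, bw o' c' S * f S := by
  rw [← sum_bw, ← sum_bw]
  refine four_functions_theorem_univ (fun S => bw o c S * f S) (fun S => bw o' c' S)
    (fun S => bw o c S) (fun S => bw o' c' S * f S)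
    (fun S => mul_nonneg (bw_nonneg ho hc S) (f0 S)) (fun S => bw_nonneg ho' hc' S)
    (fun S => bw_nonneg ho hc S) (fun S => mul_nonneg (bw_nonneg ho' hc' S) (f0 S)) ?_
  intro S T
  calc bw o c S * f S * bw o' c' T = bw o c S * bw o' c' T * f S := by ring
    _ ≤ bw o c (S ⊓ T) * bw o' c' (S ⊔ T) * f (S ⊔ T) :=
        mul_le_mul (bw_lattice ho hc ho' hc' h S T) (hf le_sup_left) (f0 _)
          (mul_nonneg (bw_nonneg ho hc _) (bw_nonneg ho' hc' _))
    _ = _ := by ring

end Vale.Agent.P159.TM.H426
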