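import Vale.Agent.P159.T1.H897.Fkg
import Vale.Agent.P159.TM.H426.Bern

/-!
Positive association of the heights together with the bits of the open edges (FK form), abstract,
for two copies (`(h, -h', ω⁺)`) and for one copy (`(h, ω⁺)`).
-/

open Finset
open Vale.Agent.P159.T1.H897

namespace Vale.Agent.P159.TM.H426

variable {V E : Type*} [Fintype V] [Fintype E] [DecidableEq E]

section abstract_form

variable {L : Type*} [DistribLattice L]

/-- the weight of a configuration and a set of open edges -/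
def wb (o c : E → L → ℝ) (m : L → ℝ) (H : L) (S : Finset E) : ℝ :=
  bw (fun e => o e H) (fun e => c e H) S * m H

/-- the weight of the configuration -/
def wh (o c : E → L → ℝ) (m : L → ℝ) (H : L) : ℝ := (∏ e, (o e H + c e H)) * m H

omit [DistribLattice L] in
lemma sum_wb (o c : E → L → ℝ) (m : L → ℝ) (H : L) : ∑ S, wb o c m H S = wh o c m H := by
  unfold wb wh
  rw [← Finset.sum_mul, sum_bw]

/-- conditional mean given the heights -/
noncomputable def fbar (o c : E → L → ℝ) (P : L → Finset E) (F : L → Finset E → ℝ) (H : L) : ℝ :=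
  (∑ S, bw (fun e => o e H) (fun e => c e H) S * F H (S ∩ P H)) / ∏ e, (o e H + c e H)

variable {o c : E → L → ℝ} {m : L → ℝ} {P : L → Finset E}

lemma fbar_mono (ho : ∀ e H, 0 ≤ o e H) (hc : ∀ e H, 0 ≤ c e H)
    (hpos : ∀ e H, 0 < o e H + c e H) (hP : Monotone P)
    (hmon : ∀ e H H', H ≤ H' → e ∈ P H → o e H * c e H' ≤ c e H * o e H')
    {F : L → Finset E → ℝ} (F0 : ∀ H S, 0 ≤ F H S)
    (hF : ∀ H H' S S', H ≤ H' → S ⊆ S' → F H S ≤ F H' S') : Monotone (fbar o c P F) := by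
  intro H H' hH
  unfold fbar
  have hp : ∀ K : L, 0 < ∏ e, (o e K + c e K) := fun K =>
    Finset.prod_pos fun e _ => hpos e K
  rw [div_le_div_iff₀ (hp H) (hp H'), thin, thin]
  set o1 : E → ℝ := fun e => if e ∈ P H then o e H else 0 with ho1
  set c1 : E → ℝ := fun e => if e ∈ P H then c e H else o e H + c e H with hc1
  set o2 : E → ℝ := fun e => if e ∈ P H' then o e H' else 0 with ho2
  set c2 : E → ℝ := fun e => if e ∈ P H' then c e H' else o e H' + c e H' with hc2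
  have o1n : ∀ e, 0 ≤ o1 e := fun e => by simp only [ho1]; split_ifs; exacts [ho _ _, le_rfl]
  have o2n : ∀ e, 0 ≤ o2 e := fun e => by simp only [ho2]; split_ifs; exacts [ho _ _, le_rfl]
  have c1n : ∀ e, 0 ≤ c1 e := fun e => by
    simp only [hc1]; split_ifs; exacts [hc _ _, add_nonneg (ho _ _) (hc _ _)]
  have c2n : ∀ e, 0 ≤ c2 e := fun e => by
    simp only [hc2]; split_ifs; exacts [hc _ _, add_nonneg (ho _ _) (hc _ _)]
  have h12 : ∀ e, o1 e * c2 e ≤ c1 e * o2 e := by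
    intro e
    by_cases h : e ∈ P H
    · have h' : e ∈ P H' := hP hH h
      simp only [ho1, hc1, ho2, hc2, if_pos h, if_pos h']
      exact hmon e H H' hH h
    · have : o1 e = 0 := by simp only [ho1, if_neg h]
      rw [this, zero_mul]
      exact mul_nonneg (c1n e) (o2n e)
  have s1 : ∏ e, (o1 e + c1 e) = ∏ e, (o e H + c e H) := by
    refine Finset.prod_congr rfl fun e _ => ?_
    simp only [ho1, hc1]
    split_ifs
    · rfl
    · rw [zero_add]
  have s2 : ∏ e, (o2 e + c2 e) = ∏ e, (o e H' + c e H') := by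
    refine Finset.prod_congr rfl fun e _ => ?_
    simp only [ho2, hc2]
    split_ifs
    · rfl
    · rw [zero_add]
  have hb := bw_mono o1n c1n o2n c2n h12 (f := F H') (F0 H') fun S S' hS => hF _ _ _ _ le_rfl hS
  rw [s1, s2] at hb
  calc (∑ S, bw o1 c1 S * F H S) * ∏ e, (o e H' + c e H')
      ≤ (∑ S, bw o1 c1 S * F H' S) * ∏ e, (o e H' + c e H') := by
        refine mul_le_mul_of_nonneg_right (Finset.sum_le_sum fun S _ => ?_) (hp H').le
        exact mul_le_mul_of_nonneg_left (hF _ _ _ _ hH (Finset.Subset.refl S))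
          (bw_nonneg o1n c1n S)
    _ ≤ (∏ e, (o e H + c e H)) * ∑ S, bw o2 c2 S * F H' S := hb
    _ = _ := mul_comm _ _

/-- positive association of the heights and the bits of the edges of `P H` -/
theorem fkg_bits (ho : ∀ e H, 0 ≤ o e H) (hc : ∀ e H, 0 ≤ c e H)
    (hpos : ∀ e H, 0 < o e H + c e H) (hm : ∀ H, 0 ≤ m H) (hP : Monotone P)
    (hmon : ∀ e H H', H ≤ H' → e ∈ P H → o e H * c e H' ≤ c e H * o e H')
    (hL : Hol (wh o c m) (wh o c m)) {F G : L → Finset E → ℝ}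
    (F0 : ∀ H S, 0 ≤ F H S) (G0 : ∀ H S, 0 ≤ G H S)
    (hF : ∀ H H' S S', H ≤ H' → S ⊆ S' → F H S ≤ F H' S')
    (hG : ∀ H H' S S', H ≤ H' → S ⊆ S' → G H S ≤ G H' S')
    (s0 : Summable (wh o c m))
    (sF : Summable fun H => ∑ S, wb o c m H S * F H (S ∩ P H))
    (sG : Summable fun H => ∑ S, wb o c m H S * G H (S ∩ P H))
    (sFG : Summable fun H => ∑ S, wb o c m H S * (F H (S ∩ P H) * G H (S ∩ P H))) :
    (∑' H, ∑ S, wb o c m H S * F H (S ∩ P H)) * (∑' H, ∑ S, wb o c m H S * G H (S ∩ P H)) ≤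
      (∑' H, wh o c m H) *
        ∑' H, ∑ S, wb o c m H S * (F H (S ∩ P H) * G H (S ∩ P H)) := by
  have hp : ∀ K : L, 0 < ∏ e, (o e K + c e K) := fun K =>
    Finset.prod_pos fun e _ => hpos e K
  have w0 : ∀ H, 0 ≤ wh o c m H := fun H => mul_nonneg (hp H).le (hm H)
  have hb0 : ∀ H S, 0 ≤ bw (fun e => o e H) (fun e => c e H) S := fun H S =>
    bw_nonneg (fun e => ho e H) (fun e => hc e H) S
  have key : ∀ (K : L → Finset E → ℝ) H,
      ∑ S, wb o c m H S * K H (S ∩ P H) = wh o c m H * fbar o c P K H := by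
    intro K H
    unfold wb wh fbar
    have : ∀ S : Finset E, bw (fun e => o e H) (fun e => c e H) S * m H * K H (S ∩ P H) =
        m H * (bw (fun e => o e H) (fun e => c e H) S * K H (S ∩ P H)) := fun S => by ring
    rw [Finset.sum_congr rfl fun S _ => this S, ← Finset.mul_sum]
    have h1 := (hp H).ne'
    field_simp
  have b0 : ∀ (K : L → Finset E → ℝ), (∀ H S, 0 ≤ K H S) → ∀ H, 0 ≤ fbar o c P K H :=
    fun K K0 H => div_nonneg (Finset.sum_nonneg fun S _ => mul_nonneg (hb0 H S) (K0 _ _)) (hp H).le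
  have harris : ∀ H, wh o c m H * (fbar o c P F H * fbar o c P G H) ≤
      ∑ S, wb o c m H S * (F H (S ∩ P H) * G H (S ∩ P H)) := by
    intro H
    have h1 := bw_harris (o := fun e => o e H) (c := fun e => c e H) (fun e => ho e H)
      (fun e => hc e H) (f := fun S => F H (S ∩ P H)) (g := fun S => G H (S ∩ P H))
      (fun S => F0 _ _) (fun S => G0 _ _)
      (fun S T h => hF _ _ _ _ le_rfl (Finset.inter_subset_inter_right h))
      (fun S T h => hG _ _ _ _ le_rfl (Finset.inter_subset_inter_right h))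
    rw [sum_bw] at h1
    have h2 : ∑ S, wb o c m H S * (F H (S ∩ P H) * G H (S ∩ P H)) =
        m H * ∑ S, bw (fun e => o e H) (fun e => c e H) S *
          (F H (S ∩ P H) * G H (S ∩ P H)) := by
      rw [Finset.mul_sum]
      refine Finset.sum_congr rfl fun S _ => ?_
      unfold wb
      ring
    rw [h2]
    unfold wh fbar
    set A := ∑ S, bw (fun e => o e H) (fun e => c e H) S * F H (S ∩ P H) with hA
    set B := ∑ S, bw (fun e => o e H) (fun e => c e H) S * G H (S ∩ P H) with hB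
    set D := ∏ e, (o e H + c e H) with hD
    have hD0 : 0 < D := hp H
    have e1 : D * m H * (A / D * (B / D)) = m H * (A * B / D) := by
      field_simp
    rw [e1]
    refine mul_le_mul_of_nonneg_left ?_ (hm H)
    rw [div_le_iff₀ hD0, mul_comm _ D]
    exact h1
  have sF' : Summable fun H => wh o c m H * fbar o c P F H := sF.congr fun H => key F H
  have sG' : Summable fun H => wh o c m H * fbar o c P G H := sG.congr fun H => key G H
  have sFG' : Summable fun H => wh o c m H * (fbar o c P F H * fbar o c P G H) :=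
    Summable.of_nonneg_of_le
      (fun H => mul_nonneg (w0 H) (mul_nonneg (b0 F F0 H) (b0 G G0 H))) harris sFG
  have hf := fkg_tsum w0 s0 sF' sG' sFG' hL
    (fbar_mono ho hc hpos hP hmon F0 hF) (fbar_mono ho hc hpos hP hmon G0 hG)
  rw [tsum_congr (key F), tsum_congr (key G)]
  exact hf.trans (mul_le_mul_of_nonneg_left (sFG'.tsum_le_tsum harris sFG) (tsum_nonneg w0))

end abstract_form

/-! ### two copies -/

/-- two copies on an edge with the kernel `w` -/
def fu (w : ℤ → ℝ) (p q : ℤ × ℤ) : ℝ := w (q.1 - p.1) * w (q.2 - p.2)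

/-- the copies are exchanged at one end -/
def sw (w : ℤ → ℝ) (p q : ℤ × ℤ) : ℝ := w (q.2 - p.1) * w (q.1 - p.2)

/-- weight of the open edge -/
noncomputable def op (w : ℤ → ℝ) (p q : ℤ × ℤ) : ℝ := max (fu w p q - sw w p q) 0

/-- weight of the closed edge -/
noncomputable def cl (w : ℤ → ℝ) (p q : ℤ × ℤ) : ℝ := min (fu w p q) (sw w p q)

lemma op_nonneg (w : ℤ → ℝ) (p q : ℤ × ℤ) : 0 ≤ op w p q := le_max_right _ _

lemma fu_nonneg {w : ℤ → ℝ} (hw : ∀ n, 0 ≤ w n) (p q : ℤ × ℤ) : 0 ≤ fu w p q :=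
  mul_nonneg (hw _) (hw _)

lemma sw_nonneg {w : ℤ → ℝ} (hw : ∀ n, 0 ≤ w n) (p q : ℤ × ℤ) : 0 ≤ sw w p q :=
  mul_nonneg (hw _) (hw _)

lemma cl_nonneg {w : ℤ → ℝ} (hw : ∀ n, 0 ≤ w n) (p q : ℤ × ℤ) : 0 ≤ cl w p q :=
  le_min (fu_nonneg hw p q) (sw_nonneg hw p q)

lemma op_add_cl (w : ℤ → ℝ) (p q : ℤ × ℤ) : op w p q + cl w p q = fu w p q := by
  unfold op cl
  rcases le_total (fu w p q) (sw w p q) with h | h
  · rw [max_eq_right (by linarith), min_eq_left h, zero_add]
  · rw [max_eq_left (by linarith), min_eq_right h]; ring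

/-- both differences positive -/
lemma sw_le_fu {w : ℤ → ℝ} (hL : LogC w) {p q : ℤ × ℤ} (h : 0 ≤ (p.1 - p.2) * (q.1 - q.2)) :
    sw w p q ≤ fu w p q := by
  unfold sw fu
  rcases le_total p.2 p.1 with hp | hp
  · rcases lt_or_ge p.2 p.1 with hp' | hp'
    · have hq : q.2 ≤ q.1 := by
        by_contra hq
        rw [not_le] at hq
        have : (p.1 - p.2) * (q.1 - q.2) < 0 := mul_neg_of_pos_of_neg (by omega) (by omega)
        omega
      exact hL _ _ _ _ (by ring) (by omega) (by omega)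
    · have : p.1 = p.2 := by omega
      rw [this, mul_comm]
  · rcases lt_or_ge p.1 p.2 with hp' | hp'
    · have hq : q.1 ≤ q.2 := by
        by_contra hq
        rw [not_le] at hq
        have : (p.1 - p.2) * (q.1 - q.2) < 0 := mul_neg_of_neg_of_pos (by omega) (by omega)
        omega
      have := hL (q.1 - p.2) (q.2 - p.2) (q.1 - p.1) (q.2 - p.1) (by ring) (by omega) (by omega)
      linarith
    · have : p.1 = p.2 := by omega
      rw [this, mul_comm]

/-- different signs -/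
lemma fu_le_sw {w : ℤ → ℝ} (hL : LogC w) {p q : ℤ × ℤ} (h : (p.1 - p.2) * (q.1 - q.2) ≤ 0) :
    fu w p q ≤ sw w p q := by
  have h' : 0 ≤ (p.1 - p.2) * (q.2 - q.1) := by
    have : (p.1 - p.2) * (q.2 - q.1) = -((p.1 - p.2) * (q.1 - q.2)) := by ring
    omega
  have := sw_le_fu hL (p := p) (q := (q.2, q.1)) h'
  unfold sw fu at this
  simp only at this
  unfold sw fu
  exact this

/-- an open edge has differences of the same strict sign at its ends -/
lemma op_pos_sign {w : ℤ → ℝ} (hL : LogC w) {p q : ℤ × ℤ} (h : op w p q ≠ 0) :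
    0 < (p.1 - p.2) * (q.1 - q.2) := by
  by_contra h'
  rw [not_lt] at h'
  apply h
  unfold op
  exact max_eq_right (by linarith [fu_le_sw hL h'])

/-- the ratio `swapped / full` decreases -/
lemma ratio_mono {w : ℤ → ℝ} (hw : ∀ n, 0 < w n) (hL : LogC w) {p q p' q' : ℤ × ℤ}
    (hp1 : p.1 ≤ p'.1) (hp2 : p'.2 ≤ p.2) (hq1 : q.1 ≤ q'.1) (hq2 : q'.2 ≤ q.2)
    (hp : p.2 < p.1) (hq : q.2 < q.1) :
    fu w p q * sw w p' q' ≤ sw w p q * fu w p' q' := by
  obtain ⟨x1, x2⟩ := p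
  obtain ⟨y1, y2⟩ := q
  obtain ⟨X1, X2⟩ := p'
  obtain ⟨Y1, Y2⟩ := q'
  simp only at hp1 hp2 hq1 hq2 hp hq
  unfold fu sw
  simp only
  -- four steps
  have a1 : w (y2 - X1) * w (y1 - x1) ≤ w (y2 - x1) * w (y1 - X1) :=
    hL _ _ _ _ (by ring) (by omega) (by omega)
  have a2 : w (y2 - x2) * w (y1 - X2) ≤ w (y1 - x2) * w (y2 - X2) := by
    have := hL (y2 - x2) (y1 - x2) (y2 - X2) (y1 - X2) (by ring) (by omega) (by omega)
    linarith
  have a3 : w (y1 - X1) * w (Y1 - X2) ≤ w (Y1 - X1) * w (y1 - X2) :=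
    hL _ _ _ _ (by ring) (by omega) (by omega)
  have a4 : w (y2 - X2) * w (Y2 - X1) ≤ w (y2 - X1) * w (Y2 - X2) := by
    have := hL (Y2 - X1) (y2 - X1) (Y2 - X2) (y2 - X2) (by ring) (by omega) (by omega)
    linarith
  have hprod : (w (y1 - x1) * w (y2 - x2) * (w (Y2 - X1) * w (Y1 - X2))) *
      (w (y2 - X1) * w (y1 - X2) * w (y1 - X1) * w (y2 - X2)) ≤
      (w (y2 - x1) * w (y1 - x2) * (w (Y1 - X1) * w (Y2 - X2))) *
      (w (y2 - X1) * w (y1 - X2) * w (y1 - X1) * w (y2 - X2)) := by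
    have b1 := mul_le_mul a1 a2 (mul_nonneg (hw _).le (hw _).le)
      (mul_nonneg (hw _).le (hw _).le)
    have b2 := mul_le_mul a3 a4 (mul_nonneg (hw _).le (hw _).le)
      (mul_nonneg (hw _).le (hw _).le)
    have b3 := mul_le_mul b1 b2
      (mul_nonneg (mul_nonneg (hw _).le (hw _).le) (mul_nonneg (hw _).le (hw _).le))
      (mul_nonneg (mul_nonneg (hw _).le (hw _).le) (mul_nonneg (hw _).le (hw _).le))
    calc _ = w (y2 - X1) * w (y1 - x1) * (w (y2 - x2) * w (y1 - X2)) *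
          (w (y1 - X1) * w (Y1 - X2) * (w (y2 - X2) * w (Y2 - X1))) := by ring
      _ ≤ _ := b3
      _ = _ := by ring
  exact le_of_mul_le_mul_right hprod (by
    have := hw (y2 - X1); have := hw (y1 - X2); have := hw (y1 - X1); have := hw (y2 - X2)
    positivity)

/-- the product of the site weights of the two copies -/
def site2 (a a' : V → ℤ → ℝ) (H : V → ℤ × ℤᵒᵈ) : ℝ :=
  ∏ x, a x (H x).1 * a' x (OrderDual.ofDual (H x).2)

/-- the pair of heights as an ordinary pair -/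
def pr (p : ℤ × ℤᵒᵈ) : ℤ × ℤ := (p.1, OrderDual.ofDual p.2)

variable {s t : E → V}

/-- the edges with positive difference at both ends -/
noncomputable def posE (s t : E → V) (H : V → ℤ × ℤᵒᵈ) : Finset E :=
  Finset.univ.filter fun e => (pr (H (s e))).2 < (pr (H (s e))).1 ∧
    (pr (H (t e))).2 < (pr (H (t e))).1

omit [Fintype V] [DecidableEq E] in
lemma posE_mono : Monotone (posE s t) := by
  classical
  intro H H' h e he
  unfold posE at he ⊢
  rw [Finset.mem_filter] at he ⊢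
  have hx : ∀ x, (pr (H x)).2 < (pr (H x)).1 → (pr (H' x)).2 < (pr (H' x)).1 := by
    intro x hx
    have h1 : (H x).1 ≤ (H' x).1 := (h x).1
    have h2 : OrderDual.ofDual (H' x).2 ≤ OrderDual.ofDual (H x).2 := (h x).2
    exact lt_of_le_of_lt h2 (lt_of_lt_of_le hx h1)
  exact ⟨Finset.mem_univ _, hx _ he.2.1, hx _ he.2.2⟩

omit [Fintype V] [Fintype E] [DecidableEq E] in
/-- one edge, two copies -/
lemma hol_fu {w : ℤ → ℝ} (w0 : ∀ n, 0 ≤ w n) (hw : LogC w) (a b : V) :
    Hol (fun H : V → ℤ × ℤᵒᵈ => fu w (pr (H a)) (pr (H b)))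
      fun H => fu w (pr (H a)) (pr (H b)) := by
  intro H K
  have h1 := hol_edge hw a b (fun v => (H v).1) fun v => (K v).1
  have h2 := hol_edge hw a b (fun v => OrderDual.ofDual (H v).2) fun v => OrderDual.ofDual (K v).2
  simp only [Pi.inf_apply, Pi.sup_apply] at h1 h2
  have e1 : ∀ v, (pr ((H ⊓ K) v)) = ((H v).1 ⊓ (K v).1, OrderDual.ofDual (H v).2 ⊔ OrderDual.ofDual (K v).2) :=
    fun v => rfl
  have e2 : ∀ v, (pr ((H ⊔ K) v)) = ((H v).1 ⊔ (K v).1, OrderDual.ofDual (H v).2 ⊓ OrderDual.ofDual (K v).2) :=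
    fun v => rfl
  simp only [e1, e2]
  unfold fu
  simp only [pr]
  have := mul_le_mul h1 h2 (mul_nonneg (w0 _) (w0 _)) (mul_nonneg (w0 _) (w0 _))
  calc _ = _ := by ring
    _ ≤ _ := this
    _ = _ := by ring

omit [Fintype E] [DecidableEq E] in
lemma hol_site2 {a a' : V → ℤ → ℝ} (ha : ∀ x n, 0 ≤ a x n) (ha' : ∀ x n, 0 ≤ a' x n) :
    Hol (site2 a a') (site2 a a') := by
  unfold site2
  refine Hol.prod (fun x _ => ?_) (fun x _ H => mul_nonneg (ha _ _) (ha' _ _))
    fun x _ H => mul_nonneg (ha _ _) (ha' _ _)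
  intro H K
  have e1 : (OrderDual.ofDual ((H ⊓ K) x).2 : ℤ) = OrderDual.ofDual (H x).2 ⊔ OrderDual.ofDual (K x).2 := rfl
  have e2 : (OrderDual.ofDual ((H ⊔ K) x).2 : ℤ) = OrderDual.ofDual (H x).2 ⊓ OrderDual.ofDual (K x).2 := rfl
  have e3 : ((H ⊓ K) x).1 = (H x).1 ⊓ (K x).1 := rfl
  have e4 : ((H ⊔ K) x).1 = (H x).1 ⊔ (K x).1 := rfl
  beta_reduce
  rw [e1, e2, e3, e4]
  have h1 : a x (H x).1 * a x (K x).1 = a x ((H x).1 ⊓ (K x).1) * a x ((H x).1 ⊔ (K x).1) := by
    rcases le_total (H x).1 (K x).1 with h | h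
    · rw [inf_eq_left.2 h, sup_eq_right.2 h]
    · rw [inf_eq_right.2 h, sup_eq_left.2 h, mul_comm]
  have h2 : a' x (OrderDual.ofDual (H x).2) * a' x (OrderDual.ofDual (K x).2) =
      a' x (OrderDual.ofDual (H x).2 ⊔ OrderDual.ofDual (K x).2) *
        a' x (OrderDual.ofDual (H x).2 ⊓ OrderDual.ofDual (K x).2) := by
    rcases le_total (OrderDual.ofDual (H x).2 : ℤ) (OrderDual.ofDual (K x).2) with h | h
    · rw [inf_eq_left.2 h, sup_eq_right.2 h, mul_comm]
    · rw [inf_eq_right.2 h, sup_eq_left.2 h]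
  refine le_of_eq ?_
  calc _ = a x (H x).1 * a x (K x).1 *
        (a' x (OrderDual.ofDual (H x).2) * a' x (OrderDual.ofDual (K x).2)) := by ring
    _ = _ := by rw [h1, h2]; ring

/-- the weight of the two copies and of the set of open edges -/
noncomputable def W2 (s t : E → V) (w : E → ℤ → ℝ) (a a' : V → ℤ → ℝ) (H : V → ℤ × ℤᵒᵈ)
    (S : Finset E) : ℝ :=
  (∏ e ∈ S, op (w e) (pr (H (s e))) (pr (H (t e)))) *
    (∏ e ∈ Sᶜ, cl (w e) (pr (H (s e))) (pr (H (t e)))) * site2 a a' H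

/-- the weight of the two copies -/
noncomputable def W2h (s t : E → V) (w : E → ℤ → ℝ) (a a' : V → ℤ → ℝ) (H : V → ℤ × ℤᵒᵈ) : ℝ :=
  (∏ e, fu (w e) (pr (H (s e))) (pr (H (t e)))) * site2 a a' H

/-- **positive association of `(h, -h', ω⁺)`** -/
theorem fkg_two {w : E → ℤ → ℝ} (hw : ∀ e n, 0 < w e n) (hL : ∀ e, LogC (w e))
    {a a' : V → ℤ → ℝ} (ha : ∀ x n, 0 ≤ a x n) (ha' : ∀ x n, 0 ≤ a' x n)
    {F G : (V → ℤ × ℤᵒᵈ) → Finset E → ℝ}
    (F0 : ∀ H S, 0 ≤ F H S) (G0 : ∀ H S, 0 ≤ G H S)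
    (hF : ∀ H H' S S', H ≤ H' → S ⊆ S' → F H S ≤ F H' S')
    (hG : ∀ H H' S S', H ≤ H' → S ⊆ S' → G H S ≤ G H' S')
    (s0 : Summable (W2h s t w a a'))
    (sF : Summable fun H => ∑ S, W2 s t w a a' H S * F H (S ∩ posE s t H))
    (sG : Summable fun H => ∑ S, W2 s t w a a' H S * G H (S ∩ posE s t H))
    (sFG : Summable fun H =>
      ∑ S, W2 s t w a a' H S * (F H (S ∩ posE s t H) * G H (S ∩ posE s t H))) :
    (∑' H, ∑ S, W2 s t w a a' H S * F H (S ∩ posE s t H)) *
        (∑' H, ∑ S, W2 s t w a a' H S * G H (S ∩ posE s t H)) ≤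
      (∑' H, W2h s t w a a' H) *
        ∑' H, ∑ S, W2 s t w a a' H S * (F H (S ∩ posE s t H) * G H (S ∩ posE s t H)) := by
  set o : E → (V → ℤ × ℤᵒᵈ) → ℝ := fun e H => op (w e) (pr (H (s e))) (pr (H (t e))) with ho
  set c : E → (V → ℤ × ℤᵒᵈ) → ℝ := fun e H => cl (w e) (pr (H (s e))) (pr (H (t e))) with hc
  have oc : ∀ e H, o e H + c e H = fu (w e) (pr (H (s e))) (pr (H (t e))) := fun e H =>
    op_add_cl _ _ _
  have eW : ∀ H S, W2 s t w a a' H S = wb o c (site2 a a') H S := fun H S => rfl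
  have eh : W2h s t w a a' = wh o c (site2 a a') := by
    funext H
    unfold W2h wh
    rw [Finset.prod_congr rfl fun e _ => (oc e H).symm]
  simp only [eW] at sF sG sFG ⊢
  rw [eh] at s0 ⊢
  have hs0 : ∀ H, 0 ≤ site2 a a' H := fun H =>
    Finset.prod_nonneg fun x _ => mul_nonneg (ha _ _) (ha' _ _)
  refine fkg_bits (o := o) (c := c) (m := site2 a a') (P := posE s t) (fun e H => op_nonneg _ _ _)
    (fun e H => cl_nonneg (fun n => (hw e n).le) _ _) (fun e H => ?_) hs0 posE_mono ?_ ?_ F0 G0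
    hF hG s0 sF sG sFG
  · rw [oc]
    exact mul_pos (hw _ _) (hw _ _)
  · intro e H H' hH he
    have he' := posE_mono (s := s) (t := t) hH he
    unfold posE at he he'
    rw [Finset.mem_filter] at he he'
    obtain ⟨-, hp, hq⟩ := he
    obtain ⟨-, hp', hq'⟩ := he'
    have hsg : 0 ≤ ((pr (H (s e))).1 - (pr (H (s e))).2) *
        ((pr (H (t e))).1 - (pr (H (t e))).2) := mul_nonneg (by omega) (by omega)
    have hsg' : 0 ≤ ((pr (H' (s e))).1 - (pr (H' (s e))).2) *
        ((pr (H' (t e))).1 - (pr (H' (t e))).2) := mul_nonneg (by omega) (by omega)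
    have h1 := sw_le_fu (hL e) hsg
    have h2 := sw_le_fu (hL e) hsg'
    have h3 := ratio_mono (hw e) (hL e) (p := pr (H (s e))) (q := pr (H (t e)))
      (p' := pr (H' (s e))) (q' := pr (H' (t e))) (hH (s e)).1 (hH (s e)).2 (hH (t e)).1
      (hH (t e)).2 hp hq
    simp only [ho, hc]
    unfold op cl
    rw [max_eq_left (by linarith), max_eq_left (by linarith), min_eq_right h1, min_eq_right h2]
    nlinarith
  · rw [← eh]
    unfold W2h
    exact (Hol.prod (fun e _ => hol_fu (fun n => (hw e n).le) (hL e) (s e) (t e))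
      (fun e _ H => fu_nonneg (fun n => (hw e n).le) _ _)
      fun e _ H => fu_nonneg (fun n => (hw e n).le) _ _).mul (hol_site2 ha ha')
      (fun H => Finset.prod_nonneg fun e _ => fu_nonneg (fun n => (hw e n).le) _ _)
      (fun H => Finset.prod_nonneg fun e _ => fu_nonneg (fun n => (hw e n).le) _ _) hs0 hs0

/-! ### one copy -/

/-- open edge, one copy: `w` even -/
noncomputable def op1 (w : ℤ → ℝ) (p q : ℤ) : ℝ := max (w (q - p) - w (q + p)) 0

/-- closed edge, one copy -/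
noncomputable def cl1 (w : ℤ → ℝ) (p q : ℤ) : ℝ := min (w (q - p)) (w (q + p))

lemma op1_nonneg (w : ℤ → ℝ) (p q : ℤ) : 0 ≤ op1 w p q := le_max_right _ _

lemma cl1_nonneg {w : ℤ → ℝ} (hw : ∀ n, 0 ≤ w n) (p q : ℤ) : 0 ≤ cl1 w p q :=
  le_min (hw _) (hw _)

lemma op1_add_cl1 (w : ℤ → ℝ) (p q : ℤ) : op1 w p q + cl1 w p q = w (q - p) := by
  unfold op1 cl1
  rcases le_total (w (q - p)) (w (q + p)) with h | h
  · rw [max_eq_right (by linarith), min_eq_left h, zero_add]
  · rw [max_eq_left (by linarith), min_eq_right h]; ring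

/-- an even log-concave kernel decreases in `|n|` -/
lemma even_anti {w : ℤ → ℝ} (hw : ∀ n, 0 ≤ w n) (he : ∀ n, w (-n) = w n) (hL : LogC w) {m n : ℤ}
    (h : |m| ≤ |n|) : w n ≤ w m := by
  have h1 : w |n| = w n := by
    rcases abs_cases n with ⟨h, _⟩ | ⟨h, _⟩ <;> rw [h]
    exact he n
  have h2 : w |m| = w m := by
    rcases abs_cases m with ⟨h, _⟩ | ⟨h, _⟩ <;> rw [h]
    exact he m
  rw [← h1, ← h2]
  have h3 := hL (-|n|) (-|m|) |m| |n| (by ring) (by omega) (by have := abs_nonneg m; omega)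
  rw [he, he] at h3
  nlinarith [hw |n|, hw |m|]

lemma sw1_le {w : ℤ → ℝ} (hw : ∀ n, 0 ≤ w n) (he : ∀ n, w (-n) = w n) (hL : LogC w) {p q : ℤ}
    (h : 0 ≤ p * q) : w (q + p) ≤ w (q - p) := by
  refine even_anti hw he hL ?_
  rw [← sq_le_sq]
  nlinarith

lemma le_sw1 {w : ℤ → ℝ} (hw : ∀ n, 0 ≤ w n) (he : ∀ n, w (-n) = w n) (hL : LogC w) {p q : ℤ}
    (h : p * q ≤ 0) : w (q - p) ≤ w (q + p) := by
  refine even_anti hw he hL ?_
  rw [← sq_le_sq]
  nlinarith

/-- an open edge has heights of the same strict sign at its ends -/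
lemma op1_pos_sign {w : ℤ → ℝ} (hw : ∀ n, 0 ≤ w n) (he : ∀ n, w (-n) = w n) (hL : LogC w)
    {p q : ℤ} (h : op1 w p q ≠ 0) : 0 < p * q := by
  by_contra h'
  rw [not_lt] at h'
  apply h
  unfold op1
  exact max_eq_right (by linarith [le_sw1 hw he hL h'])

/-- the ratio `reflected / full` decreases -/
lemma ratio1_mono {w : ℤ → ℝ} (hw : ∀ n, 0 < w n) (he : ∀ n, w (-n) = w n) (hL : LogC w)
    {p q p' q' : ℤ} (hp1 : p ≤ p') (hq1 : q ≤ q') (hp : 0 < p) (hq : 0 < q) :
    w (q - p) * w (q' + p') ≤ w (q + p) * w (q' - p') := by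
  have a1 : w (q - p) * w (q + p') ≤ w (q + p) * w (q - p') := by
    have := hL (p - q) (p' - q) (q + p) (q + p') (by ring) (by omega) (by omega)
    rw [← he (q - p), ← he (q - p'), show -(q - p) = p - q by ring,
      show -(q - p') = p' - q by ring]
    linarith
  have a2 : w (q - p') * w (q' + p') ≤ w (q' - p') * w (q + p') := by
    have := hL (q - p') (q' - p') (q + p') (q' + p') (by ring) (by omega) (by omega)
    linarith
  have hprod : (w (q - p) * w (q' + p')) * (w (q + p') * w (q - p')) ≤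
      (w (q + p) * w (q' - p')) * (w (q + p') * w (q - p')) := by
    have b := mul_le_mul a1 a2 (mul_nonneg (hw _).le (hw _).le)
      (mul_nonneg (hw _).le (hw _).le)
    calc _ = _ := by ring
      _ ≤ _ := b
      _ = _ := by ring
  exact le_of_mul_le_mul_right hprod (mul_pos (hw _) (hw _))

/-- the edges with positive heights at both ends -/
noncomputable def posE1 (s t : E → V) (h : V → ℤ) : Finset E :=
  Finset.univ.filter fun e => 0 < h (s e) ∧ 0 < h (t e)

omit [Fintype V] [DecidableEq E] in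
lemma posE1_mono : Monotone (posE1 s t) := by
  classical
  intro h h' hh e he
  unfold posE1 at he ⊢
  rw [Finset.mem_filter] at he ⊢
  exact ⟨Finset.mem_univ _, lt_of_lt_of_le he.2.1 (hh _), lt_of_lt_of_le he.2.2 (hh _)⟩

/-- the weight of one copy and of the set of open edges -/
noncomputable def W1 (s t : E → V) (w : E → ℤ → ℝ) (a : V → ℤ → ℝ) (h : V → ℤ)
    (S : Finset E) : ℝ :=
  (∏ e ∈ S, op1 (w e) (h (s e)) (h (t e))) *
    (∏ e ∈ Sᶜ, cl1 (w e) (h (s e)) (h (t e))) * ∏ x, a x (h x)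

/-- the weight of one copy -/
noncomputable def W1h (s t : E → V) (w : E → ℤ → ℝ) (a : V → ℤ → ℝ) (h : V → ℤ) : ℝ :=
  (∏ e, w e (h (t e) - h (s e))) * ∏ x, a x (h x)

/-- **positive association of `(h, ω⁺)`** -/
theorem fkg_one {w : E → ℤ → ℝ} (hw : ∀ e n, 0 < w e n) (he : ∀ e n, w e (-n) = w e n)
    (hL : ∀ e, LogC (w e)) {a : V → ℤ → ℝ} (ha : ∀ x n, 0 ≤ a x n)
    {F G : (V → ℤ) → Finset E → ℝ}
    (F0 : ∀ h S, 0 ≤ F h S) (G0 : ∀ h S, 0 ≤ G h S)
    (hF : ∀ h h' S S', h ≤ h' → S ⊆ S' → F h S ≤ F h' S')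
    (hG : ∀ h h' S S', h ≤ h' → S ⊆ S' → G h S ≤ G h' S')
    (s0 : Summable (W1h s t w a))
    (sF : Summable fun h => ∑ S, W1 s t w a h S * F h (S ∩ posE1 s t h))
    (sG : Summable fun h => ∑ S, W1 s t w a h S * G h (S ∩ posE1 s t h))
    (sFG : Summable fun h =>
      ∑ S, W1 s t w a h S * (F h (S ∩ posE1 s t h) * G h (S ∩ posE1 s t h))) :
    (∑' h, ∑ S, W1 s t w a h S * F h (S ∩ posE1 s t h)) *
        (∑' h, ∑ S, W1 s t w a h S * G h (S ∩ posE1 s t h)) ≤
      (∑' h, W1h s t w a h) *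
        ∑' h, ∑ S, W1 s t w a h S * (F h (S ∩ posE1 s t h) * G h (S ∩ posE1 s t h)) := by
  set m : (V → ℤ) → ℝ := fun h => ∏ x, a x (h x) with hm
  set o : E → (V → ℤ) → ℝ := fun e h => op1 (w e) (h (s e)) (h (t e)) with ho
  set c : E → (V → ℤ) → ℝ := fun e h => cl1 (w e) (h (s e)) (h (t e)) with hc
  have oc : ∀ e h, o e h + c e h = w e (h (t e) - h (s e)) := fun e h => op1_add_cl1 _ _ _
  have eW : ∀ h S, W1 s t w a h S = wb o c m h S := fun h S => rfl
  have eh : W1h s t w a = wh o c m := by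
    funext h
    unfold W1h wh
    rw [Finset.prod_congr rfl fun e _ => (oc e h).symm]
  simp only [eW] at sF sG sFG ⊢
  rw [eh] at s0 ⊢
  have hs0 : ∀ h, 0 ≤ m h := fun h => Finset.prod_nonneg fun x _ => ha _ _
  refine fkg_bits (o := o) (c := c) (m := m) (P := posE1 s t) (fun e h => op1_nonneg _ _ _)
    (fun e h => cl1_nonneg (fun n => (hw e n).le) _ _) (fun e h => ?_) hs0 posE1_mono ?_ ?_ F0 G0
    hF hG s0 sF sG sFG
  · rw [oc]
    exact hw _ _
  · intro e h h' hh hmem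
    unfold posE1 at hmem
    rw [Finset.mem_filter] at hmem
    obtain ⟨-, hp, hq⟩ := hmem
    have hp' : 0 < h' (s e) := lt_of_lt_of_le hp (hh _)
    have hq' : 0 < h' (t e) := lt_of_lt_of_le hq (hh _)
    have h1 := sw1_le (fun n => (hw e n).le) (he e) (hL e) (mul_pos hp hq).le
    have h2 := sw1_le (fun n => (hw e n).le) (he e) (hL e) (mul_pos hp' hq').le
    have h3 := ratio1_mono (hw e) (he e) (hL e) (hh (s e)) (hh (t e)) hp hq
    simp only [ho, hc]
    unfold op1 cl1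
    rw [max_eq_left (by linarith), max_eq_left (by linarith), min_eq_right h1, min_eq_right h2]
    nlinarith
  · rw [← eh]
    have hW : Hol (fun h : V → ℤ => ∏ e, w e (h (t e) - h (s e)))
        fun h => ∏ e, w e (h (t e) - h (s e)) :=
      hol_Wk (s := s) (t := t) (fun e n => (hw e n).le) hL
    have hS : Hol m m := by
      simp only [hm]
      refine Hol.prod (fun x _ => ?_) (fun x _ h => ha _ _) fun x _ h => ha _ _
      intro h k
      show a x (h x) * a x (k x) ≤ a x (h x ⊓ k x) * a x (h x ⊔ k x)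
      rcases le_total (h x) (k x) with hh | hh
      · rw [inf_eq_left.2 hh, sup_eq_right.2 hh]
      · rw [inf_eq_right.2 hh, sup_eq_left.2 hh, mul_comm]
    exact hW.mul hS (fun h => Finset.prod_nonneg fun e _ => (hw e _).le)
      (fun h => Finset.prod_nonneg fun e _ => (hw e _).le) hs0 hs0

end Vale.Agent.P159.TM.H426
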