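import Vale.Agent.P159.TM.H857.H2B1
import Vale.Agent.P145.FB.Ev

/-!
P159 / T1, row R7 (helper426): the two-copy torus law as a percolation `PP` of the fine lattice
(`P145/FB`).

`red N z` = the torus vertex of the half of `z`, `Lf D P` = periodic lift of the positive vertices
(`0 < D`) and of the edge set `P` to the fine lattice (even-even = vertex, one odd coordinate =
edge, faces never), `pQ N b ξ hb f Q` = probability that the lift of `(d, ω⁺)` satisfies `Q`,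
`ppT : PP` for the background `f = 0`.
-/

open scoped ENNReal
open Finset

set_option linter.unusedSectionVars false

namespace Vale.Agent.P159.TM.H426

open Vale.Agent.P145.FB (PP IL Inc Loc)
open Vale.Agent.P159.TM.H60 Vale.Agent.P159.TM.H459
open Vale.Agent.P159.TM.H576 (Ex ind plus Fk le2)

/-! ### the lift -/

/-- the torus vertex of the half of a point of the fine lattice -/
def red (N : ℕ) (z : ℤ × ℤ) : Spec.V N := (((z.1 / 2 : ℤ) : ZMod N), ((z.2 / 2 : ℤ) : ZMod N))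

/-- periodic lift of the positive vertices and of the edges of `P` to the fine lattice -/
def Lf {N : ℕ} (D : Spec.V N → ℤ) (P : Finset (Spec.E N)) : Set (ℤ × ℤ) :=
  {z | (z.1 % 2 = 0 ∧ z.2 % 2 = 0 ∧ 0 < D (red N z)) ∨
    (z.1 % 2 = 1 ∧ z.2 % 2 = 0 ∧ (red N z, true) ∈ P) ∨
    (z.1 % 2 = 0 ∧ z.2 % 2 = 1 ∧ (red N z, false) ∈ P)}

theorem mem_Lf {N : ℕ} {D : Spec.V N → ℤ} {P : Finset (Spec.E N)} {z : ℤ × ℤ} :
    z ∈ Lf D P ↔ (z.1 % 2 = 0 ∧ z.2 % 2 = 0 ∧ 0 < D (red N z)) ∨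
    (z.1 % 2 = 1 ∧ z.2 % 2 = 0 ∧ (red N z, true) ∈ P) ∨
    (z.1 % 2 = 0 ∧ z.2 % 2 = 1 ∧ (red N z, false) ∈ P) := Iff.rfl

theorem Lf_mono {N : ℕ} {D D' : Spec.V N → ℤ} {P P' : Finset (Spec.E N)} (hD : ∀ v, D v ≤ D' v)
    (hP : P ⊆ P') : Lf D P ⊆ Lf D' P' := by
  rintro z (⟨h1, h2, h3⟩ | ⟨h1, h2, h3⟩ | ⟨h1, h2, h3⟩)
  · exact Or.inl ⟨h1, h2, h3.trans_le (hD _)⟩
  · exact Or.inr (Or.inl ⟨h1, h2, hP h3⟩)
  · exact Or.inr (Or.inr ⟨h1, h2, hP h3⟩)

/-! ### automorphisms -/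

section aut
variable {V E S : Type*} [Fintype V] [DecidableEq V] [Fintype E] [DecidableEq E]

/-- invariance of the weight under an automorphism -/
theorem wt_aut (σ : Sys V E S) (π : V ≃ V) (ε : E ≃ E)
    (hop : ∀ e (x : V → S), σ.op (ε e) (x (σ.s (ε e))) (x (σ.t (ε e))) =
      σ.op e (x (π (σ.s e))) (x (π (σ.t e))))
    (hcl : ∀ e (x : V → S), σ.cl (ε e) (x (σ.s (ε e))) (x (σ.t (ε e))) =
      σ.cl e (x (π (σ.s e))) (x (π (σ.t e))))
    (hg : ∀ v s, σ.g (π v) s = σ.g v s) (x : V → S) (om : Finset E) :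
    σ.wt (om.map ε.toEmbedding) x = σ.wt om (fun v => x (π v)) := by
  unfold Sys.wt
  have h1 : (om.map ε.toEmbedding)ᶜ = omᶜ.map ε.toEmbedding := by
    ext e
    simp only [Finset.mem_compl, Finset.mem_map_equiv]
  rw [h1, Finset.prod_map, Finset.prod_map]
  congr 1
  · congr 1
    · exact Finset.prod_congr rfl fun e _ => hop e x
    · exact Finset.prod_congr rfl fun e _ => hcl e x
  · rw [← Equiv.prod_comp π]
    exact Finset.prod_congr rfl fun v _ => hg v _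

theorem Ex_aut (σ : Sys V E S) (π : V ≃ V) (ε : E ≃ E)
    (hop : ∀ e (x : V → S), σ.op (ε e) (x (σ.s (ε e))) (x (σ.t (ε e))) =
      σ.op e (x (π (σ.s e))) (x (π (σ.t e))))
    (hcl : ∀ e (x : V → S), σ.cl (ε e) (x (σ.s (ε e))) (x (σ.t (ε e))) =
      σ.cl e (x (π (σ.s e))) (x (π (σ.t e))))
    (hg : ∀ v s, σ.g (π v) s = σ.g v s) (F : (V → S) → Finset E → ℝ≥0∞) :
    Ex σ (fun x om => F (fun v => x (π v)) (om.map ε.symm.toEmbedding)) = Ex σ F := by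
  unfold Ex
  let A : (V → S) ≃ (V → S) := Equiv.arrowCongr π.symm (Equiv.refl S)
  have hA : ∀ x : V → S, A x = fun v => x (π v) := fun x => by
    funext v
    simp [A, Equiv.arrowCongr]
  rw [← A.tsum_eq (fun x => ∑ om : Finset E, ENNReal.ofReal (σ.wt om x) * F x om)]
  refine tsum_congr fun x => ?_
  rw [hA, ← Equiv.sum_comp ε.finsetCongr]
  refine Finset.sum_congr rfl fun om _ => ?_
  rw [Equiv.finsetCongr_apply]
  have h1 : (om.map ε.toEmbedding).map ε.symm.toEmbedding = om := by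
    ext e
    simp
  show ENNReal.ofReal (σ.wt (om.map ε.toEmbedding) x) *
    F (fun v => x (π v)) ((om.map ε.toEmbedding).map ε.symm.toEmbedding) =
    ENNReal.ofReal (σ.wt om fun v => x (π v)) * F (fun v => x (π v)) om
  rw [wt_aut σ π ε hop hcl hg, h1]

/-- the two orders of the ends of an edge -/
def Aut (σ : Sys V E S) (π : V ≃ V) (ε : E ≃ E) : Prop :=
  ∀ e, (σ.s (ε e) = π (σ.s e) ∧ σ.t (ε e) = π (σ.t e)) ∨
    (σ.s (ε e) = π (σ.t e) ∧ σ.t (ε e) = π (σ.s e))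

theorem plus_aut (σ : Sys V E S) (π : V ≃ V) (ε : E ≃ E) (h : Aut σ π ε) (x : V → S)
    (om : Finset E) : plus σ (fun v => x (π v)) (om.map ε.symm.toEmbedding) =
      (plus σ x om).map ε.symm.toEmbedding := by
  ext e
  rw [Finset.mem_map_equiv, Equiv.symm_symm]
  unfold plus
  rw [Finset.mem_filter, Finset.mem_filter, Finset.mem_map_equiv, Equiv.symm_symm]
  rcases h e with ⟨h1, h2⟩ | ⟨h1, h2⟩
  · rw [h1, h2]
  · rw [h1, h2, and_comm (a := 0 < σ.d (x (π (σ.t e))))]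

end aut

section law
variable {N : ℕ} [NeZero N] {b : ℝ} (ξ : ℕ)

theorem σ2_sym (hb : 0 ≤ b) (f : Spec.V N → ℝ) (e : Spec.E N) (p q : ℤ × ℤ) :
    (Spec.σ2 N b ξ hb f).op e p q = (Spec.σ2 N b ξ hb f).op e q p ∧
      (Spec.σ2 N b ξ hb f).cl e p q = (Spec.σ2 N b ξ hb f).cl e q p := by
  have h : ∀ p q : ℤ × ℤ, (Spec.σ2 N b ξ hb f).fl e p q = (Spec.σ2 N b ξ hb f).fl e q p := by
    intro p q
    show H353.wI b (q.1 - p.1) * H353.wI b (q.2 - p.2) =
      H353.wI b (p.1 - q.1) * H353.wI b (p.2 - q.2)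
    rw [← neg_sub p.1 q.1, ← neg_sub p.2 q.2, H353.wI_neg, H353.wI_neg]
  have h2 : (Spec.σ2 N b ξ hb f).fl e ((Spec.σ2 N b ξ hb f).sw p) q =
      (Spec.σ2 N b ξ hb f).fl e ((Spec.σ2 N b ξ hb f).sw q) p := by
    rw [← (Spec.σ2 N b ξ hb f).fl_sw_right, h]
  unfold Sys.op Sys.cl
  rw [h p q, h2]
  exact ⟨rfl, rfl⟩

/-- an automorphism of the torus leaves the law with background `0` invariant -/
theorem Ex_torus (hb : 0 ≤ b) (π : Spec.V N ≃ Spec.V N) (ε : Spec.E N ≃ Spec.E N)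
    (h : Aut (Spec.σ2 N b ξ hb 0) π ε) (F : (Spec.V N → ℤ × ℤ) → Finset (Spec.E N) → ℝ≥0∞) :
    Ex (Spec.σ2 N b ξ hb 0) (fun x om => F (fun v => x (π v)) (om.map ε.symm.toEmbedding)) =
      Ex (Spec.σ2 N b ξ hb 0) F := by
  refine Ex_aut _ π ε (fun e x => ?_) (fun e x => ?_) (fun v s => rfl) F
  · have h0 : (Spec.σ2 N b ξ hb 0).op (ε e) = (Spec.σ2 N b ξ hb 0).op e := rfl
    rw [h0]
    rcases h e with ⟨h1, h2⟩ | ⟨h1, h2⟩
    · rw [h1, h2]
    · rw [h1, h2, (σ2_sym ξ hb 0 e _ _).1]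
  · have h0 : (Spec.σ2 N b ξ hb 0).cl (ε e) = (Spec.σ2 N b ξ hb 0).cl e := rfl
    rw [h0]
    rcases h e with ⟨h1, h2⟩ | ⟨h1, h2⟩
    · rw [h1, h2]
    · rw [h1, h2, (σ2_sym ξ hb 0 e _ _).2]

end law

/-! ### the probability -/

section prob
variable (N : ℕ) [NeZero N] (b : ℝ) (ξ : ℕ)

/-- the (not normalised) integral of the event `Q` of the lift -/
noncomputable def eQ (hb : 0 ≤ b) (f : Spec.V N → ℝ) (Q : Set (ℤ × ℤ) → Prop) : ℝ≥0∞ :=
  Ex (Spec.σ2 N b ξ hb f) fun x om =>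
    ind (Q (Lf (fun v => (x v).1 - (x v).2) (plus (Spec.σ2 N b ξ hb f) x om)))

/-- the probability of the event `Q` of the lift -/
noncomputable def pQ (hb : 0 ≤ b) (f : Spec.V N → ℝ) (Q : Set (ℤ × ℤ) → Prop) : ℝ :=
  (eQ N b ξ hb f Q / Ex (Spec.σ2 N b ξ hb f) fun _ _ => 1).toReal

end prob

section pp
variable {N : ℕ} [NeZero N] {b : ℝ} {ξ : ℕ}

theorem eQ_le_one (hb : 0 ≤ b) (f : Spec.V N → ℝ) (Q : Set (ℤ × ℤ) → Prop) :
    eQ N b ξ hb f Q ≤ Ex (Spec.σ2 N b ξ hb f) fun _ _ => 1 :=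
  H576.Ex_mono fun _ _ _ => H576.ind_le_one _

theorem quot_ne_top (hb : 0 ≤ b) (f : Spec.V N → ℝ) (Q : Set (ℤ × ℤ) → Prop) :
    eQ N b ξ hb f Q / (Ex (Spec.σ2 N b ξ hb f) fun _ _ => 1) ≠ ∞ :=
  ne_top_of_le_ne_top ENNReal.one_ne_top
    (ENNReal.div_le_of_le_mul (by rw [one_mul]; exact eQ_le_one hb f Q))

theorem pQ_nonneg (hb : 0 ≤ b) (f : Spec.V N → ℝ) (Q : Set (ℤ × ℤ) → Prop) :
    0 ≤ pQ N b ξ hb f Q := ENNReal.toReal_nonneg

theorem pQ_le_one (hb : 0 ≤ b) (f : Spec.V N → ℝ) (Q : Set (ℤ × ℤ) → Prop) :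
    pQ N b ξ hb f Q ≤ 1 := by
  unfold pQ
  rw [← ENNReal.toReal_one]
  refine ENNReal.toReal_mono ENNReal.one_ne_top ?_
  exact ENNReal.div_le_of_le_mul (by rw [one_mul]; exact eQ_le_one hb f Q)

theorem eQ_mono (hb : 0 ≤ b) (f : Spec.V N → ℝ) {Q R : Set (ℤ × ℤ) → Prop}
    (h : ∀ S, Q S → R S) : eQ N b ξ hb f Q ≤ eQ N b ξ hb f R :=
  H576.Ex_mono fun _ _ _ => H576.ind_mono (h _)

theorem pQ_mono (hb : 0 ≤ b) (f : Spec.V N → ℝ) {Q R : Set (ℤ × ℤ) → Prop}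
    (h : ∀ S, Q S → R S) : pQ N b ξ hb f Q ≤ pQ N b ξ hb f R :=
  ENNReal.toReal_mono (quot_ne_top hb f R) (ENNReal.div_le_div_right (eQ_mono hb f h) _)

theorem pQ_or_le (hb : 0 ≤ b) (f : Spec.V N → ℝ) (Q R : Set (ℤ × ℤ) → Prop) :
    pQ N b ξ hb f (fun S => Q S ∨ R S) ≤ pQ N b ξ hb f Q + pQ N b ξ hb f R := by
  unfold pQ
  rw [← ENNReal.toReal_add (quot_ne_top hb f Q) (quot_ne_top hb f R)]
  refine ENNReal.toReal_mono
    (ENNReal.add_ne_top.2 ⟨quot_ne_top hb f Q, quot_ne_top hb f R⟩) ?_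
  rw [← ENNReal.add_div]
  refine ENNReal.div_le_div_right ?_ _
  unfold eQ
  rw [← H576.Ex_add]
  refine H576.Ex_mono fun x om _ => ?_
  set T := Lf (fun v => (x v).1 - (x v).2) (plus (Spec.σ2 N b ξ hb f) x om)
  by_cases h1 : Q T
  · rw [H576.ind_true h1, H576.ind_true (Or.inl h1)]
    exact le_self_add
  · by_cases h2 : R T
    · rw [H576.ind_true h2, H576.ind_true (Or.inr h2)]
      exact le_add_self
    · rw [H576.ind_false (by tauto : ¬ (Q T ∨ R T))]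
      exact zero_le

theorem pQ_fkg (hb : 0 < b) (hξ : 0 < ξ) (f : Spec.V N → ℝ) {Q R : Set (ℤ × ℤ) → Prop}
    (hQ : Inc Q) (hR : Inc R) :
    pQ N b ξ hb.le f Q * pQ N b ξ hb.le f R ≤ pQ N b ξ hb.le f (fun S => Q S ∧ R S) := by
  have M := H857.fk_T hb hξ f
  set σ := Spec.σ2 N b ξ hb.le f with hσ
  have mono : ∀ Q : Set (ℤ × ℤ) → Prop, Inc Q →
      H576.MonoF le2 (fun (x : Spec.V N → ℤ × ℤ) (P : Finset (Spec.E N)) =>
        ind (Q (Lf (fun v => (x v).1 - (x v).2) P))) := by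
    intro Q hQ x x' om om' hx ho
    refine H576.ind_mono fun h => hQ _ _ (Lf_mono (fun v => ?_) ho) h
    have h1 := (hx v).1
    have h2 := (hx v).2
    omega
  have key := M.fkg _ _ (mono Q hQ) (mono R hR)
  set Z := Ex σ (fun _ _ => 1) with hZ
  have e1 : eQ N b ξ hb.le f (fun S => Q S ∧ R S) = Ex σ (fun x om =>
      ind (Q (Lf (fun v => (x v).1 - (x v).2) (plus σ x om))) *
        ind (R (Lf (fun v => (x v).1 - (x v).2) (plus σ x om)))) := by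
    unfold eQ
    refine H576.Ex_congr fun x om _ => ?_
    set T := Lf (fun v => (x v).1 - (x v).2) (plus σ x om)
    by_cases h1 : Q T
    · by_cases h2 : R T
      · rw [H576.ind_true h1, H576.ind_true h2, H576.ind_true ⟨h1, h2⟩, one_mul]
      · rw [H576.ind_false h2, H576.ind_false (by tauto : ¬ (Q T ∧ R T)), mul_zero]
    · rw [H576.ind_false h1, H576.ind_false (by tauto : ¬ (Q T ∧ R T)), zero_mul]
  unfold pQ
  rw [← ENNReal.toReal_mul]
  refine ENNReal.toReal_mono (quot_ne_top hb.le f _) ?_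
  rw [ENNReal.le_div_iff_mul_le (Or.inl M.Z0) (Or.inl M.Zt)]
  have h3 : eQ N b ξ hb.le f Q / Z * (eQ N b ξ hb.le f R / Z) * Z =
      (eQ N b ξ hb.le f Q * eQ N b ξ hb.le f R) / Z := by
    rw [mul_assoc, ENNReal.div_mul_cancel M.Z0 M.Zt, mul_comm (eQ N b ξ hb.le f Q / Z),
      ← mul_div_assoc, mul_comm (eQ N b ξ hb.le f R)]
  rw [h3]
  refine ENNReal.div_le_of_le_mul ?_
  rw [e1, mul_comm _ Z]
  exact key

/-- symmetries of the lift -/
theorem pQ_aut (hb : 0 ≤ b) (π : Spec.V N ≃ Spec.V N) (ε : Spec.E N ≃ Spec.E N)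
    (h : Aut (Spec.σ2 N b ξ hb 0) π ε) (T : ℤ × ℤ → ℤ × ℤ)
    (hT : ∀ (D : Spec.V N → ℤ) (P : Finset (Spec.E N)),
      Lf (fun v => D (π v)) (P.map ε.symm.toEmbedding) = {z | T z ∈ Lf D P})
    (Q : Set (ℤ × ℤ) → Prop) :
    pQ N b ξ hb 0 (fun S => Q {z | T z ∈ S}) = pQ N b ξ hb 0 Q := by
  have h1 : eQ N b ξ hb 0 (fun S => Q {z | T z ∈ S}) = eQ N b ξ hb 0 Q := by
    unfold eQ
    rw [← Ex_torus ξ hb π ε h (fun x om =>
      ind (Q (Lf (fun v => (x v).1 - (x v).2) (plus (Spec.σ2 N b ξ hb 0) x om))))]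
    refine H576.Ex_congr fun x om _ => ?_
    rw [plus_aut _ π ε h]
    show ind (Q {z | T z ∈ Lf (fun v => (x v).1 - (x v).2) (plus (Spec.σ2 N b ξ hb 0) x om)}) =
      ind (Q (Lf (fun v => (x (π v)).1 - (x (π v)).2)
        ((plus (Spec.σ2 N b ξ hb 0) x om).map ε.symm.toEmbedding)))
    rw [← hT]
  unfold pQ
  rw [h1]


/-- parity preserving maps of the fine lattice -/
theorem Lf_par {π : Spec.V N ≃ Spec.V N} {ε : Spec.E N ≃ Spec.E N} {T : ℤ × ℤ → ℤ × ℤ}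
    (hp : ∀ z, (T z).1 % 2 = z.1 % 2 ∧ (T z).2 % 2 = z.2 % 2)
    (hv : ∀ z, z.1 % 2 = 0 → z.2 % 2 = 0 → red N (T z) = π (red N z))
    (h1 : ∀ z, z.1 % 2 = 1 → z.2 % 2 = 0 → ε (red N z, true) = (red N (T z), true))
    (h2 : ∀ z, z.1 % 2 = 0 → z.2 % 2 = 1 → ε (red N z, false) = (red N (T z), false))
    (D : Spec.V N → ℤ) (P : Finset (Spec.E N)) :
    Lf (fun v => D (π v)) (P.map ε.symm.toEmbedding) = {z | T z ∈ Lf D P} := by
  ext z
  rw [Set.mem_ofPred_eq, mem_Lf, mem_Lf, (hp z).1, (hp z).2]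
  refine or_congr ?_ (or_congr ?_ ?_)
  · refine and_congr_right fun ha => and_congr_right fun hb => ?_
    rw [hv z ha hb]
  · refine and_congr_right fun ha => and_congr_right fun hb => ?_
    rw [Finset.mem_map_equiv, Equiv.symm_symm, h1 z ha hb]
  · refine and_congr_right fun ha => and_congr_right fun hb => ?_
    rw [Finset.mem_map_equiv, Equiv.symm_symm, h2 z ha hb]

/-- reflection `x ↦ -x` of the edges -/
def εx (N : ℕ) : Spec.E N ≃ Spec.E N where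
  toFun e := ((-e.1.1 - (if e.2 then 1 else 0), e.1.2), e.2)
  invFun e := ((-e.1.1 - (if e.2 then 1 else 0), e.1.2), e.2)
  left_inv e := by
    obtain ⟨⟨x, y⟩, c⟩ := e
    simp
  right_inv e := by
    obtain ⟨⟨x, y⟩, c⟩ := e
    simp

/-- reflection `x ↦ -x` of the vertices -/
def πx (N : ℕ) : Spec.V N ≃ Spec.V N where
  toFun v := (-v.1, v.2)
  invFun v := (-v.1, v.2)
  left_inv v := by simp
  right_inv v := by simp

/-- reflection `y ↦ -y` of the edges -/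
def εy (N : ℕ) : Spec.E N ≃ Spec.E N where
  toFun e := ((e.1.1, -e.1.2 - (if e.2 then 0 else 1)), e.2)
  invFun e := ((e.1.1, -e.1.2 - (if e.2 then 0 else 1)), e.2)
  left_inv e := by
    obtain ⟨⟨x, y⟩, c⟩ := e
    simp
  right_inv e := by
    obtain ⟨⟨x, y⟩, c⟩ := e
    simp

/-- reflection `y ↦ -y` of the vertices -/
def πy (N : ℕ) : Spec.V N ≃ Spec.V N where
  toFun v := (v.1, -v.2)
  invFun v := (v.1, -v.2)
  left_inv v := by simp
  right_inv v := by simp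

/-- the swap of the edges -/
def εw (N : ℕ) : Spec.E N ≃ Spec.E N where
  toFun e := ((e.1.2, e.1.1), !e.2)
  invFun e := ((e.1.2, e.1.1), !e.2)
  left_inv e := by simp
  right_inv e := by simp

/-- the swap of the vertices -/
def πw (N : ℕ) : Spec.V N ≃ Spec.V N where
  toFun v := (v.2, v.1)
  invFun v := (v.2, v.1)
  left_inv v := by simp
  right_inv v := by simp

theorem pQ_shift (hb : 0 ≤ b) (a c : ℤ) (Q : Set (ℤ × ℤ) → Prop) :
    pQ N b ξ hb 0 (fun S => Q {z | (z.1 + 2 * a, z.2 + 2 * c) ∈ S}) = pQ N b ξ hb 0 Q := by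
  have hred : ∀ z : ℤ × ℤ, red N (z.1 + 2 * a, z.2 + 2 * c) =
      red N z + ((a : ZMod N), (c : ZMod N)) := by
    intro z
    unfold red
    have e1 : (z.1 + 2 * a) / 2 = z.1 / 2 + a := by omega
    have e2 : (z.2 + 2 * c) / 2 = z.2 / 2 + c := by omega
    simp only [e1, e2, Int.cast_add]
    rfl
  refine pQ_aut hb (Equiv.addRight ((a : ZMod N), (c : ZMod N)))
    ((Equiv.addRight ((a : ZMod N), (c : ZMod N))).prodCongr (Equiv.refl Bool)) (fun e => ?_)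
    (fun z => (z.1 + 2 * a, z.2 + 2 * c)) (Lf_par (fun z => ?_) (fun z _ _ => ?_)
      (fun z _ _ => ?_) (fun z _ _ => ?_)) Q
  · left
    refine ⟨rfl, ?_⟩
    show e.1 + ((a : ZMod N), (c : ZMod N)) + dir N e.2 =
      e.1 + dir N e.2 + ((a : ZMod N), (c : ZMod N))
    abel
  · dsimp only
    omega
  · exact hred z
  · rw [hred]
    rfl
  · rw [hred]
    rfl

theorem pQ_reflx (hb : 0 ≤ b) (Q : Set (ℤ × ℤ) → Prop) :
    pQ N b ξ hb 0 (fun S => Q {z | (-z.1, z.2) ∈ S}) = pQ N b ξ hb 0 Q := by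
  refine pQ_aut hb (πx N) (εx N) (fun e => ?_) (fun z => (-z.1, z.2)) (Lf_par (fun z => ?_)
    (fun z h _ => ?_) (fun z h _ => ?_) (fun z h _ => ?_)) Q
  · obtain ⟨⟨x, y⟩, c⟩ := e
    cases c
    · left
      refine ⟨?_, ?_⟩
      · show ((-x - (if false = true then 1 else 0), y) : Spec.V N) = (-x, y)
        simp
      · show ((-x - (if false = true then 1 else 0), y) : Spec.V N) + dir N false =
          (-((x, y) + dir N false : Spec.V N).1, ((x, y) + dir N false : Spec.V N).2)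
        simp [dir]
    · right
      refine ⟨?_, ?_⟩
      · show ((-x - (if true = true then 1 else 0), y) : Spec.V N) =
          (-((x, y) + dir N true : Spec.V N).1, ((x, y) + dir N true : Spec.V N).2)
        simp [dir]
        ring
      · show ((-x - (if true = true then 1 else 0), y) : Spec.V N) + dir N true = (-x, y)
        simp [dir]
  · dsimp only
    omega
  · have e1 : (-z.1) / 2 = -(z.1 / 2) := by omega
    show (((((-z.1) / 2 : ℤ) : ZMod N), ((z.2 / 2 : ℤ) : ZMod N)) : Spec.V N) =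
      (-((z.1 / 2 : ℤ) : ZMod N), ((z.2 / 2 : ℤ) : ZMod N))
    rw [e1, Int.cast_neg]
  · have e1 : (-z.1) / 2 = -(z.1 / 2) - 1 := by omega
    show (((-((z.1 / 2 : ℤ) : ZMod N) - (if true = true then 1 else 0),
      ((z.2 / 2 : ℤ) : ZMod N)), true) : Spec.E N) =
      (((((-z.1) / 2 : ℤ) : ZMod N), ((z.2 / 2 : ℤ) : ZMod N)), true)
    rw [e1, if_pos rfl, Int.cast_sub, Int.cast_neg, Int.cast_one]
  · have e1 : (-z.1) / 2 = -(z.1 / 2) := by omega
    show (((-((z.1 / 2 : ℤ) : ZMod N) - (if false = true then 1 else 0),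
      ((z.2 / 2 : ℤ) : ZMod N)), false) : Spec.E N) =
      (((((-z.1) / 2 : ℤ) : ZMod N), ((z.2 / 2 : ℤ) : ZMod N)), false)
    rw [e1, if_neg (by decide), Int.cast_neg, sub_zero]

theorem pQ_refly (hb : 0 ≤ b) (Q : Set (ℤ × ℤ) → Prop) :
    pQ N b ξ hb 0 (fun S => Q {z | (z.1, -z.2) ∈ S}) = pQ N b ξ hb 0 Q := by
  refine pQ_aut hb (πy N) (εy N) (fun e => ?_) (fun z => (z.1, -z.2)) (Lf_par (fun z => ?_)
    (fun z _ h => ?_) (fun z _ h => ?_) (fun z _ h => ?_)) Q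
  · obtain ⟨⟨x, y⟩, c⟩ := e
    cases c
    · right
      refine ⟨?_, ?_⟩
      · show ((x, -y - (if false = true then 0 else 1)) : Spec.V N) =
          (((x, y) + dir N false : Spec.V N).1, -((x, y) + dir N false : Spec.V N).2)
        simp [dir]
        ring
      · show ((x, -y - (if false = true then 0 else 1)) : Spec.V N) + dir N false = (x, -y)
        simp [dir]
    · left
      refine ⟨?_, ?_⟩
      · show ((x, -y - (if true = true then 0 else 1)) : Spec.V N) = (x, -y)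
        simp
      · show ((x, -y - (if true = true then 0 else 1)) : Spec.V N) + dir N true =
          (((x, y) + dir N true : Spec.V N).1, -((x, y) + dir N true : Spec.V N).2)
        simp [dir]
  · dsimp only
    omega
  · have e1 : (-z.2) / 2 = -(z.2 / 2) := by omega
    show ((((z.1 / 2 : ℤ) : ZMod N), (((-z.2) / 2 : ℤ) : ZMod N)) : Spec.V N) =
      (((z.1 / 2 : ℤ) : ZMod N), -((z.2 / 2 : ℤ) : ZMod N))
    rw [e1, Int.cast_neg]
  · have e1 : (-z.2) / 2 = -(z.2 / 2) := by omega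
    show (((((z.1 / 2 : ℤ) : ZMod N), -((z.2 / 2 : ℤ) : ZMod N) - (if true = true then 0 else 1)),
      true) : Spec.E N) = ((((z.1 / 2 : ℤ) : ZMod N), (((-z.2) / 2 : ℤ) : ZMod N)), true)
    rw [e1, if_pos rfl, Int.cast_neg, sub_zero]
  · have e1 : (-z.2) / 2 = -(z.2 / 2) - 1 := by omega
    show (((((z.1 / 2 : ℤ) : ZMod N), -((z.2 / 2 : ℤ) : ZMod N) -
      (if false = true then 0 else 1)), false) : Spec.E N) =
      ((((z.1 / 2 : ℤ) : ZMod N), (((-z.2) / 2 : ℤ) : ZMod N)), false)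
    rw [e1, if_neg (by decide), Int.cast_sub, Int.cast_neg, Int.cast_one]

theorem pQ_swap (hb : 0 ≤ b) (Q : Set (ℤ × ℤ) → Prop) :
    pQ N b ξ hb 0 (fun S => Q {z | (z.2, z.1) ∈ S}) = pQ N b ξ hb 0 Q := by
  refine pQ_aut hb (πw N) (εw N) (fun e => ?_) (fun z => (z.2, z.1)) (fun D P => ?_) Q
  · obtain ⟨⟨x, y⟩, c⟩ := e
    left
    refine ⟨rfl, ?_⟩
    show ((y, x) : Spec.V N) + dir N (!c) =
      (((x, y) + dir N c : Spec.V N).2, ((x, y) + dir N c : Spec.V N).1)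
    cases c <;> simp [dir]
  · ext z
    rw [Set.mem_ofPred_eq, mem_Lf, mem_Lf, Finset.mem_map_equiv, Finset.mem_map_equiv,
      Equiv.symm_symm]
    show (z.1 % 2 = 0 ∧ z.2 % 2 = 0 ∧ 0 < D (red N (z.2, z.1))) ∨
      (z.1 % 2 = 1 ∧ z.2 % 2 = 0 ∧ (red N (z.2, z.1), false) ∈ P) ∨
      (z.1 % 2 = 0 ∧ z.2 % 2 = 1 ∧ (red N (z.2, z.1), true) ∈ P) ↔
      (z.2 % 2 = 0 ∧ z.1 % 2 = 0 ∧ 0 < D (red N (z.2, z.1))) ∨
      (z.2 % 2 = 1 ∧ z.1 % 2 = 0 ∧ (red N (z.2, z.1), true) ∈ P) ∨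
      (z.2 % 2 = 0 ∧ z.1 % 2 = 1 ∧ (red N (z.2, z.1), false) ∈ P)
    tauto

end pp

/-- **the two-copy torus law without background as a percolation of the fine lattice** -/
noncomputable def ppT (N : ℕ) [NeZero N] (b : ℝ) (ξ : ℕ) (hb : 0 < b) (hξ : 0 < ξ) : PP where
  p := pQ N b ξ hb.le 0
  nonneg := pQ_nonneg hb.le 0
  le_one := pQ_le_one hb.le 0
  mono := fun _ _ h => pQ_mono hb.le 0 h
  or_le := pQ_or_le hb.le 0
  fkg := fun _ _ hQ hR => pQ_fkg hb hξ 0 hQ.1 hR.1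
  shift := fun a c Q _ => pQ_shift hb.le a c Q
  reflx := fun Q _ => pQ_reflx hb.le Q
  refly := fun Q _ => pQ_refly hb.le Q
  swap := fun Q _ => pQ_swap hb.le Q

theorem ppT_p (N : ℕ) [NeZero N] (b : ℝ) (ξ : ℕ) (hb : 0 < b) (hξ : 0 < ξ)
    (Q : Set (ℤ × ℤ) → Prop) : (ppT N b ξ hb hξ).p Q = pQ N b ξ hb.le 0 Q := rfl

end Vale.Agent.P159.TM.H426
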