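import Vale.Agent.P159.TM.H426.Pp
import Vale.Agent.P145.FB.Tassion
import Vale.Agent.P159.TM.H77.PosF
import Vale.Agent.P159.T1.H532.Bes

/-!
P159 / T1, row R7 (helper426): an edge of the two-copy torus law without background is open with
positive ends with probability bounded from below, uniformly in the torus and in the mass.
-/

open scoped ENNReal
open Finset

set_option linter.unusedSectionVars false

namespace Vale.Agent.P159.TM.H426

open Vale.Agent.P145.FB (PP LRc NC rc)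
open Vale.Agent.P159.H353 (wI)
open Vale.Agent.P159.TM.H60 Vale.Agent.P159.TM.H459
open Vale.Agent.P159.TM.H576 (Ex ind plus Fk le2)

/-! ### Bessel weights -/

section bessel

/-- **Turan defect** -/
theorem defect {b : ℝ} (hb : 0 < b) {n : ℤ} (hn : 0 ≤ n) :
    wI b n ^ 2 ≤ ((n : ℝ) + 1) * (b / 2 + 1) ^ 2 * (wI b n ^ 2 - wI b (n + 1) * wI b (n - 1)) := by
  have hn' : (0 : ℝ) ≤ n := by exact_mod_cast hn
  have r0 := T1.H532.wI_rec hb.le n
  have r1 := T1.H532.wI_rec hb.le (n + 1)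
  have r2 := T1.H532.wI_rec hb.le (n + 2)
  rw [show n + 1 - 1 = n by ring, show n + 1 + 1 = n + 2 by ring] at r1
  rw [show n + 2 - 1 = n + 1 by ring, show n + 2 + 1 = n + 3 by ring] at r2
  push_cast at r0 r1 r2
  have hL := T1.H897.logC_wI hb.le (n + 1) (n + 2) (n + 2) (n + 3) (by ring) (by omega) (by omega)
  have p1 : 0 < wI b (n + 1) := H857.wI_pos hb _
  have h21 : wI b (n + 2) ≤ wI b (n + 1) := H353.wI_anti hb.le (by
    rw [abs_of_nonneg (by omega), abs_of_nonneg (by omega)]; omega)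
  set β : ℝ := b / 2 with hβ
  have hβ0 : 0 < β := by positivity
  set w0 := wI b n
  set w1 := wI b (n + 1)
  set w2 := wI b (n + 2)
  set w3 := wI b (n + 3)
  set wm := wI b (n - 1)
  have p0 : 0 < w0 := H857.wI_pos hb _
  set D : ℝ := w0 ^ 2 - w1 * wm with hD
  -- `β D = w0 w1 - β (w1² - w0 w2)`
  have e1 : β * D = w0 * w1 - β * (w1 ^ 2 - w0 * w2) := by
    rw [hD]
    linear_combination w1 * r0 - w0 * r1
  have e2 : β * (w1 ^ 2 - w0 * w2) = w1 * w2 - β * (w2 ^ 2 - w1 * w3) := by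
    linear_combination w2 * r1 - w1 * r2
  have e3 : 0 ≤ β * (w2 ^ 2 - w1 * w3) := mul_nonneg hβ0.le (by nlinarith)
  have e4 : w1 * (w0 - w2) ≤ β * D := by nlinarith
  have e5 : ((n : ℝ) + 1) * w1 ^ 2 ≤ β ^ 2 * D := by
    have : β * (w1 * (w0 - w2)) = ((n : ℝ) + 1) * w1 ^ 2 := by
      linear_combination (-w1) * r1
    nlinarith [mul_le_mul_of_nonneg_left e4 hβ0.le]
  have e6 : β * w0 ≤ ((n : ℝ) + 1) * (β + 1) * w1 := by
    have h1 : β * w0 = ((n : ℝ) + 1) * w1 + β * w2 := by linear_combination -r1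
    rw [h1]
    nlinarith [mul_le_mul_of_nonneg_left h21 hβ0.le, mul_nonneg (mul_nonneg hn' hβ0.le) p1.le]
  have e7 : (β * w0) ^ 2 ≤ (((n : ℝ) + 1) * (β + 1) * w1) ^ 2 :=
    pow_le_pow_left₀ (by positivity) e6 2
  have e8 : (((n : ℝ) + 1) * (β + 1) * w1) ^ 2 ≤
      ((n : ℝ) + 1) * (β + 1) ^ 2 * (β ^ 2 * D) := by
    calc (((n : ℝ) + 1) * (β + 1) * w1) ^ 2
        = ((n : ℝ) + 1) * (β + 1) ^ 2 * (((n : ℝ) + 1) * w1 ^ 2) := by ring
      _ ≤ _ := mul_le_mul_of_nonneg_left e5 (by positivity)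
  have e9 : β ^ 2 * w0 ^ 2 ≤ β ^ 2 * (((n : ℝ) + 1) * (β + 1) ^ 2 * D) := by
    calc β ^ 2 * w0 ^ 2 = (β * w0) ^ 2 := by ring
      _ ≤ _ := e7
      _ ≤ _ := e8
      _ = _ := by ring
  exact le_of_mul_le_mul_left e9 (by positivity)

theorem defect' {b : ℝ} (hb : 0 < b) (n : ℤ) :
    wI b n ^ 2 ≤ (|(n : ℝ)| + 1) * (b / 2 + 1) ^ 2 *
      (wI b n ^ 2 - wI b (n + 1) * wI b (n - 1)) := by
  rcases le_total 0 n with h | h
  · rw [abs_of_nonneg (by exact_mod_cast h)]
    exact defect hb h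
  · have h1 := defect hb (n := -n) (by omega)
    rw [H353.wI_neg, show -n + 1 = -(n - 1) by ring, H353.wI_neg,
      show -n - 1 = -(n + 1) by ring, H353.wI_neg, mul_comm (wI b (n - 1))] at h1
    rw [abs_of_nonpos (by exact_mod_cast h)]
    push_cast at h1
    exact h1

/-- the open weight of an edge between two positive sites -/
theorem four_point {b : ℝ} (hb : 0 < b) {a a' c c' : ℤ} (h1 : a' < a) (h2 : c' < c) :
    wI b (c - a) * wI b (c' - a') ≤ (|((c - a : ℤ) : ℝ)| + 1) * (b / 2 + 1) ^ 2 *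
      (wI b (c - a) * wI b (c' - a') - wI b (c - a') * wI b (c' - a)) := by
  have hL := T1.H897.logC_wI hb.le
  have hw := H857.wI_pos hb
  have hn := fun n => (hw n).le
  set g := c - a with hg
  set g' := c' - a' with hg'
  -- `w(k) w(k') w(g) ≤ w(g+1) w(g-1) w(g')`
  have key : wI b (c - a') * wI b (c' - a) * wI b g ≤ wI b (g + 1) * wI b (g - 1) * wI b g' := by
    rcases le_total g' g with h | h
    · have k1 : wI b (c' - a) * wI b (c - a') ≤ wI b (g' - 1) * wI b (g + 1) :=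
        hL _ _ _ _ (by omega) (by omega) (by omega)
      have k2 : wI b (g' - 1) * wI b g ≤ wI b (g - 1) * wI b g' :=
        hL _ _ _ _ (by omega) (by omega) (by omega)
      calc wI b (c - a') * wI b (c' - a) * wI b g
          = (wI b (c' - a) * wI b (c - a')) * wI b g := by ring
        _ ≤ (wI b (g' - 1) * wI b (g + 1)) * wI b g := mul_le_mul_of_nonneg_right k1 (hn _)
        _ = wI b (g + 1) * (wI b (g' - 1) * wI b g) := by ring
        _ ≤ wI b (g + 1) * (wI b (g - 1) * wI b g') := mul_le_mul_of_nonneg_left k2 (hn _)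
        _ = _ := by ring
    · have k1 : wI b (c' - a) * wI b (c - a') ≤ wI b (g - 1) * wI b (g' + 1) :=
        hL _ _ _ _ (by omega) (by omega) (by omega)
      have k2 : wI b g * wI b (g' + 1) ≤ wI b (g + 1) * wI b g' :=
        hL _ _ _ _ (by omega) (by omega) (by omega)
      calc wI b (c - a') * wI b (c' - a) * wI b g
          = (wI b (c' - a) * wI b (c - a')) * wI b g := by ring
        _ ≤ (wI b (g - 1) * wI b (g' + 1)) * wI b g := mul_le_mul_of_nonneg_right k1 (hn _)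
        _ = wI b (g - 1) * (wI b g * wI b (g' + 1)) := by ring
        _ ≤ wI b (g - 1) * (wI b (g + 1) * wI b g') := mul_le_mul_of_nonneg_left k2 (hn _)
        _ = _ := by ring
  set M : ℝ := (|(g : ℝ)| + 1) * (b / 2 + 1) ^ 2 with hM
  have hM0 : 0 ≤ M := by positivity
  have hd := defect' hb g
  have h3 : wI b g * (wI b g * wI b g') ≤
      wI b g * (M * (wI b g * wI b g' - wI b (c - a') * wI b (c' - a))) := by
    calc wI b g * (wI b g * wI b g') = wI b g ^ 2 * wI b g' := by ring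
      _ ≤ (M * (wI b g ^ 2 - wI b (g + 1) * wI b (g - 1))) * wI b g' :=
          mul_le_mul_of_nonneg_right hd (hn _)
      _ = M * (wI b g ^ 2 * wI b g' - wI b (g + 1) * wI b (g - 1) * wI b g') := by ring
      _ ≤ M * (wI b g ^ 2 * wI b g' - wI b (c - a') * wI b (c' - a) * wI b g) :=
          mul_le_mul_of_nonneg_left (by linarith) hM0
      _ = _ := by ring
  exact le_of_mul_le_mul_left h3 (hw g)

/-- constant of the reverse Turan inequality -/
noncomputable def cT (b : ℝ) : ℝ := min (12 / (b ^ 2 + 24)) ((4 * b / (b ^ 2 + 8)) ^ 2)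

lemma cT_pos {b : ℝ} (hb : 0 < b) : 0 < cT b := lt_min (by positivity) (by positivity)

lemma cT_le_one (b : ℝ) : cT b ≤ 1 := by
  refine (min_le_left _ _).trans ?_
  rw [div_le_one (by positivity)]
  nlinarith [sq_nonneg b]

lemma step_up {b : ℝ} (hb : 0 < b) {n : ℤ} (hn : 0 ≤ n) :
    wI b n ≤ (b / (2 * (n + 2)) + 2 * (n + 1) / b) * wI b (n + 1) := by
  have hn' : (0 : ℝ) ≤ n := by exact_mod_cast hn
  have r1 := T1.H532.wI_rec hb.le (n + 1)
  have r2 := T1.H532.wI_rec hb.le (n + 2)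
  rw [show n + 1 - 1 = n by ring, show n + 1 + 1 = n + 2 by ring] at r1
  rw [show n + 2 - 1 = n + 1 by ring] at r2
  push_cast at r1 r2
  have p3 := H353.wI_nonneg hb.le (n + 2 + 1)
  have h2 : wI b (n + 2) ≤ b / (2 * (n + 2)) * wI b (n + 1) := by
    rw [div_mul_eq_mul_div, le_div_iff₀ (by positivity)]
    nlinarith [mul_nonneg hb.le p3]
  have h1 : wI b n = wI b (n + 2) + 2 * (n + 1) / b * wI b (n + 1) := by
    field_simp
    linarith
  rw [h1]
  linarith

lemma turan_pos {b : ℝ} (hb : 0 < b) {n : ℤ} (hn : 0 ≤ n) :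
    cT b * wI b n ^ 2 ≤ wI b (n + 1) * wI b (n - 1) := by
  have p0 := H353.wI_nonneg hb.le n
  have p1 := H353.wI_nonneg hb.le (n + 1)
  have pm := H353.wI_nonneg hb.le (n - 1)
  have hup := step_up hb hn
  rcases hn.eq_or_lt with h | h
  · subst h
    have e1 : wI b (0 - 1) = wI b (0 + 1) := by
      rw [zero_sub, H353.wI_neg, zero_add]
    rw [e1]
    refine (mul_le_mul_of_nonneg_right (min_le_right _ _) (sq_nonneg _)).trans ?_
    rw [← pow_two, ← mul_pow]
    refine pow_le_pow_left₀ (by positivity) ?_ 2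
    have h3 : (b / (2 * (((0 : ℤ) : ℝ) + 2)) + 2 * (((0 : ℤ) : ℝ) + 1) / b) =
        (b ^ 2 + 8) / (4 * b) := by
      push_cast
      field_simp
      ring
    rw [h3] at hup
    have h4 := mul_le_mul_of_nonneg_left hup (show 0 ≤ 4 * b / (b ^ 2 + 8) by positivity)
    refine h4.trans (le_of_eq ?_)
    field_simp
  · have hn1 : (1 : ℝ) ≤ n := by exact_mod_cast h
    have r0 := T1.H532.wI_rec hb.le n
    have hm : 2 * n / b * wI b n ≤ wI b (n - 1) := by
      rw [div_mul_eq_mul_div, div_le_iff₀ hb]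
      nlinarith [mul_nonneg hb.le p1]
    refine (mul_le_mul_of_nonneg_right (min_le_left _ _) (sq_nonneg _)).trans ?_
    have hK : 0 < b / (2 * ((n : ℝ) + 2)) + 2 * (n + 1) / b := by positivity
    have hu : wI b n / (b / (2 * ((n : ℝ) + 2)) + 2 * (n + 1) / b) ≤ wI b (n + 1) := by
      rw [div_le_iff₀ hK]
      linarith
    have h5 := mul_le_mul hu hm (by positivity) p1
    refine le_trans ?_ h5
    have h6 : wI b n / (b / (2 * ((n : ℝ) + 2)) + 2 * (n + 1) / b) * (2 * n / b * wI b n) =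
        (2 * n / b) / (b / (2 * ((n : ℝ) + 2)) + 2 * (n + 1) / b) * wI b n ^ 2 := by
      ring
    rw [h6]
    refine mul_le_mul_of_nonneg_right ?_ (sq_nonneg _)
    have h7 : (2 * n / b) / (b / (2 * ((n : ℝ) + 2)) + 2 * (n + 1) / b) =
        4 * n * (n + 2) / (b ^ 2 + 4 * (n + 1) * (n + 2)) := by
      field_simp
      ring
    rw [h7, div_le_div_iff₀ (by positivity) (by positivity)]
    nlinarith [sq_nonneg b, mul_nonneg (sq_nonneg b) (sub_nonneg.2 hn1),
      mul_nonneg (sub_nonneg.2 hn1) (sub_nonneg.2 hn1),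
      mul_nonneg (mul_nonneg (sq_nonneg b) (sub_nonneg.2 hn1)) (sub_nonneg.2 hn1)]

lemma turan {b : ℝ} (hb : 0 < b) (n : ℤ) :
    cT b * wI b n ^ 2 ≤ wI b (n + 1) * wI b (n - 1) := by
  rcases le_total 0 n with h | h
  · exact turan_pos hb h
  · have h1 := turan_pos hb (n := -n) (by omega)
    rw [H353.wI_neg, show -n + 1 = -(n - 1) by ring, H353.wI_neg,
      show -n - 1 = -(n + 1) by ring, H353.wI_neg, mul_comm (wI b (n - 1))] at h1
    exact h1

end bessel

/-! ### the open weight of one edge -/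

section open_edge
variable {V E S : Type*} [Fintype V] [DecidableEq V] [Fintype E] [DecidableEq E]

theorem sum_open (σ : Sys V E S) (e : E) (x : V → S) {M : ℝ}
    (h : σ.fl e (x (σ.s e)) (x (σ.t e)) ≤ M * σ.op e (x (σ.s e)) (x (σ.t e))) :
    σ.tot x ≤ M * ∑ om : Finset E, (if e ∈ om then σ.wt om x else 0) := by
  set o : E → ℝ := fun e' => σ.op e' (x (σ.s e')) (x (σ.t e')) with ho
  set c : E → ℝ := fun e' => σ.cl e' (x (σ.s e')) (x (σ.t e')) with hc
  set G : ℝ := ∏ v, σ.g v (x v) with hG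
  have hG0 : 0 ≤ G := Finset.prod_nonneg fun v _ => σ.g_nonneg _ _
  have hoc : ∀ e', o e' + c e' = σ.fl e' (x (σ.s e')) (x (σ.t e')) := fun e' => σ.op_add_cl _ _ _
  have h1 : ∑ om : Finset E, (if e ∈ om then σ.wt om x else 0) =
      (∏ e', (o e' + Function.update c e 0 e')) * G := by
    rw [full_expand, Finset.sum_mul]
    refine Finset.sum_congr rfl fun om _ => ?_
    by_cases he : e ∈ om
    · rw [if_pos he]
      unfold Sys.wt
      congr 2
      refine Finset.prod_congr rfl fun e' he' => ?_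
      have : e' ≠ e := by
        rintro rfl
        exact (Finset.mem_compl.1 he') he
      rw [Function.update_of_ne this]
    · rw [if_neg he, Finset.prod_eq_zero (Finset.mem_compl.2 he) (Function.update_self _ _ _),
        mul_zero, zero_mul]
  have h2 : ∏ e', (o e' + Function.update c e 0 e') =
      o e * ∏ e' ∈ Finset.univ.erase e, (o e' + c e') := by
    rw [← Finset.mul_prod_erase univ _ (Finset.mem_univ e), Function.update_self, add_zero]
    congr 1
    refine Finset.prod_congr rfl fun e' he' => ?_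
    rw [Function.update_of_ne (Finset.ne_of_mem_erase he')]
  have h3 : σ.tot x = (o e + c e) * (∏ e' ∈ Finset.univ.erase e, (o e' + c e')) * G := by
    unfold Sys.tot
    rw [Finset.mul_prod_erase univ (fun e' => o e' + c e') (Finset.mem_univ e)]
    congr 1
    exact Finset.prod_congr rfl fun e' _ => (hoc e').symm
  have h4 : 0 ≤ ∏ e' ∈ Finset.univ.erase e, (o e' + c e') :=
    Finset.prod_nonneg fun e' _ => by
      rw [hoc]
      exact σ.fl_nonneg _ _ _
  rw [h1, h2, h3, hoc]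
  calc σ.fl e (x (σ.s e)) (x (σ.t e)) * (∏ e' ∈ Finset.univ.erase e, (o e' + c e')) * G
      ≤ (M * o e) * (∏ e' ∈ Finset.univ.erase e, (o e' + c e')) * G :=
        mul_le_mul_of_nonneg_right (mul_le_mul_of_nonneg_right h h4) hG0
    _ = _ := by ring

/-- integral of a function of the heights -/
theorem Ex_heights (σ : Sys V E S) (F : (V → S) → ℝ≥0∞) :
    Ex σ (fun x _ => F x) = ∑' x, ENNReal.ofReal (σ.tot x) * F x := by
  unfold Ex
  refine tsum_congr fun x => ?_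
  rw [← Finset.sum_mul, ← ENNReal.ofReal_sum_of_nonneg fun om _ => σ.wt_nonneg om x, σ.sum_wt]

theorem edge_open (σ : Sys V E S) (e : E) {A : (V → S) → Prop} {M : ℝ} (hM : 0 ≤ M)
    (hA : ∀ x, A x → 0 < σ.d (x (σ.s e)) ∧ 0 < σ.d (x (σ.t e)) ∧
      σ.fl e (x (σ.s e)) (x (σ.t e)) ≤ M * σ.op e (x (σ.s e)) (x (σ.t e))) :
    Ex σ (fun x _ => ind (A x)) ≤ ENNReal.ofReal M * Ex σ (fun x om => ind (e ∈ plus σ x om)) := by
  rw [Ex_heights]
  unfold Ex
  rw [← ENNReal.tsum_mul_left]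
  refine ENNReal.tsum_le_tsum fun x => ?_
  by_cases h : A x
  · obtain ⟨h1, h2, h3⟩ := hA x h
    rw [H576.ind_true h, mul_one]
    have e1 : ∑ om : Finset E, ENNReal.ofReal (σ.wt om x) * ind (e ∈ plus σ x om) =
        ENNReal.ofReal (∑ om : Finset E, (if e ∈ om then σ.wt om x else 0)) := by
      rw [ENNReal.ofReal_sum_of_nonneg fun om _ => by
        split_ifs
        exacts [σ.wt_nonneg om x, le_rfl]]
      refine Finset.sum_congr rfl fun om _ => ?_
      have h5 : e ∈ plus σ x om ↔ e ∈ om := by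
        unfold plus
        rw [Finset.mem_filter]
        exact ⟨fun h => h.1, fun h => ⟨h, h1, h2⟩⟩
      by_cases he : e ∈ om
      · rw [H576.ind_true (h5.2 he), if_pos he, mul_one]
      · rw [H576.ind_false (fun h => he (h5.1 h)), if_neg he, mul_zero, ENNReal.ofReal_zero]
    rw [e1, ← ENNReal.ofReal_mul hM]
    exact ENNReal.ofReal_le_ofReal (sum_open σ e x h3)
  · rw [H576.ind_false h, mul_zero]
    exact zero_le

end open_edge

/-! ### one copy -/

section law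
variable {N : ℕ} [NeZero N]

/-- the weight of one copy -/
noncomputable def Wo (b : ℝ) (ξ : ℕ) (h : Spec.V N → ℤ) : ℝ :=
  (∏ e : Spec.E N, wI b (h (tT e) - h (tS e))) * ∏ v : Spec.V N, Spec.aT (N := N) (ξ : ℝ) 0 v (h v)

theorem Wo_nonneg {b : ℝ} (hb : 0 ≤ b) (ξ : ℕ) (h : Spec.V N → ℤ) : 0 ≤ Wo b ξ h :=
  mul_nonneg (Finset.prod_nonneg fun _ _ => H353.wI_nonneg hb _)
    (Finset.prod_nonneg fun _ _ => Spec.aT_nonneg _ _ _ _)

theorem tot_two {b : ℝ} (hb : 0 ≤ b) (ξ : ℕ) (x : Spec.V N → ℤ × ℤ) :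
    (Spec.σ2 N b ξ hb 0).tot x = Wo b ξ (fun v => (x v).1) * Wo b ξ (fun v => (x v).2) := by
  have h1 : (Spec.σ2 N b ξ hb 0).tot x =
      (∏ e : Spec.E N, wI b ((x (tT e)).1 - (x (tS e)).1) * wI b ((x (tT e)).2 - (x (tS e)).2)) *
      ∏ v : Spec.V N, Spec.aT (N := N) (ξ : ℝ) 0 v (x v).1 * Spec.aT (N := N) (ξ : ℝ) 0 v (x v).2 :=
    rfl
  rw [h1, Finset.prod_mul_distrib, Finset.prod_mul_distrib]
  unfold Wo
  ring

/-- change of one height by `± 1` -/
theorem energy {b : ℝ} (hb : 0 < b) {ξ : ℕ} (hξ : 0 < ξ) (h : Spec.V N → ℤ) (u : Spec.V N) :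
    cT b ^ 4 * Wo b ξ h ^ 2 ≤ Real.exp 1 *
      (Wo b ξ (h + Pi.single u 1) * Wo b ξ (h - Pi.single u 1)) := by
  classical
  set δ : Spec.V N → ℤ := Pi.single u 1 with hδ
  have hδu : δ u = 1 := Pi.single_eq_same u 1
  have hδn : ∀ v, v ≠ u → δ v = 0 := fun v hv => Pi.single_eq_of_ne hv 1
  set T4 : Finset (Spec.E N) :=
    {(u, true), (u, false), (u - dir N true, true), (u - dir N false, false)} with hT4
  have hc4 : T4.card ≤ 4 := Finset.card_le_four
  have hc0 := cT_pos hb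
  have hc1 := cT_le_one b
  set r : Spec.E N → ℝ := fun e => if e ∈ T4 then cT b else 1 with hr
  have hr0 : ∀ e, 0 ≤ r e := fun e => by
    simp only [hr]
    split_ifs
    exacts [hc0.le, zero_le_one]
  have hrp : cT b ^ 4 ≤ ∏ e, r e := by
    have h1 : ∏ e, r e = cT b ^ T4.card := by
      simp only [hr]
      rw [Finset.prod_ite_mem, Finset.univ_inter, Finset.prod_const]
    rw [h1]
    exact pow_le_pow_of_le_one hc0.le hc1 hc4
  have hE : ∀ e : Spec.E N, r e * wI b (h (tT e) - h (tS e)) ^ 2 ≤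
      wI b ((h + δ) (tT e) - (h + δ) (tS e)) * wI b ((h - δ) (tT e) - (h - δ) (tS e)) := by
    intro e
    set g := h (tT e) - h (tS e) with hg
    set ε := δ (tT e) - δ (tS e) with hε
    have e1 : (h + δ) (tT e) - (h + δ) (tS e) = g + ε := by
      simp only [Pi.add_apply]
      omega
    have e2 : (h - δ) (tT e) - (h - δ) (tS e) = g - ε := by
      simp only [Pi.sub_apply]
      omega
    rw [e1, e2]
    have p0 : 0 ≤ wI b g ^ 2 := sq_nonneg _
    by_cases he : e ∈ T4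
    · have hre : r e = cT b := if_pos he
      rw [hre]
      have h3 : ε = 0 ∨ ε = 1 ∨ ε = -1 := by
        by_cases h1 : tT e = u <;> by_cases h2 : tS e = u
        · left; rw [hε, h1, h2]; ring
        · right; left; rw [hε, h1, hδu, hδn _ h2]; ring
        · right; right; rw [hε, h2, hδu, hδn _ h1]; ring
        · left; rw [hε, hδn _ h1, hδn _ h2]; ring
      rcases h3 with h3 | h3 | h3
      · rw [h3, add_zero, sub_zero]
        nlinarith
      · rw [h3]
        exact turan hb g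
      · rw [h3, sub_neg_eq_add, mul_comm, ← sub_eq_add_neg]
        rw [mul_comm (wI b (g - 1))]
        exact (mul_comm _ _).trans_le (turan hb g)
    · have hre : r e = 1 := if_neg he
      rw [hre, one_mul]
      have h1 : tS e ≠ u := by
        intro h1
        apply he
        obtain ⟨v, c⟩ := e
        have : v = u := h1
        subst this
        cases c <;> simp [hT4]
      have h2 : tT e ≠ u := by
        intro h1
        apply he
        obtain ⟨v, c⟩ := e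
        have h2 : v + dir N c = u := h1
        have h3 : v = u - dir N c := by rw [← h2]; abel
        subst h3
        cases c <;> simp [hT4]
      have h3 : ε = 0 := by rw [hε, hδn _ h1, hδn _ h2]; ring
      rw [h3, add_zero, sub_zero, pow_two]
  have hA : ∏ v : Spec.V N, Spec.aT (N := N) (ξ : ℝ) 0 v (h v) ^ 2 ≤ Real.exp 1 *
      ∏ v : Spec.V N, (Spec.aT (N := N) (ξ : ℝ) 0 v ((h + δ) v) *
        Spec.aT (N := N) (ξ : ℝ) 0 v ((h - δ) v)) := by
    have hξR : (1 : ℝ) ≤ ξ := by exact_mod_cast hξ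
    have h1 : ∀ v : Spec.V N, Spec.aT (N := N) (ξ : ℝ) 0 v (h v) ^ 2 =
        (if v = u then Real.exp (1 / (ξ : ℝ) ^ 2) else 1) *
        (Spec.aT (N := N) (ξ : ℝ) 0 v ((h + δ) v) * Spec.aT (N := N) (ξ : ℝ) 0 v ((h - δ) v)) := by
      intro v
      have hm : ∀ n : ℤ, Spec.aT (N := N) (ξ : ℝ) 0 v n =
          Real.exp (-(1 / (ξ : ℝ) ^ 2 / 2 * (n : ℝ) ^ 2)) := by
        intro n
        unfold Spec.aT SpecC.ms
        simp
      rw [hm, hm, hm, ← Real.exp_nat_mul, ← Real.exp_add]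
      by_cases hv : v = u
      · rw [if_pos hv, ← Real.exp_add, hv, Pi.add_apply, Pi.sub_apply, hδu]
        congr 1
        push_cast
        ring
      · rw [if_neg hv, one_mul, Pi.add_apply, Pi.sub_apply, hδn v hv, add_zero, sub_zero]
        congr 1
        push_cast
        ring
    rw [Finset.prod_congr rfl fun v _ => h1 v, Finset.prod_mul_distrib, Finset.prod_ite_eq',
      if_pos (Finset.mem_univ u)]
    refine mul_le_mul_of_nonneg_right (Real.exp_le_exp.2 ?_) (Finset.prod_nonneg fun v _ =>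
      mul_nonneg (Spec.aT_nonneg _ _ _ _) (Spec.aT_nonneg _ _ _ _))
    rw [div_le_one (by positivity)]
    exact one_le_pow₀ hξR
  have p1 : 0 ≤ ∏ e : Spec.E N, wI b (h (tT e) - h (tS e)) ^ 2 :=
    Finset.prod_nonneg fun _ _ => sq_nonneg _
  have hP : cT b ^ 4 * ∏ e : Spec.E N, wI b (h (tT e) - h (tS e)) ^ 2 ≤
      ∏ e : Spec.E N, (wI b ((h + δ) (tT e) - (h + δ) (tS e)) *
        wI b ((h - δ) (tT e) - (h - δ) (tS e))) := by
    calc cT b ^ 4 * ∏ e : Spec.E N, wI b (h (tT e) - h (tS e)) ^ 2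
        ≤ (∏ e, r e) * ∏ e : Spec.E N, wI b (h (tT e) - h (tS e)) ^ 2 :=
          mul_le_mul_of_nonneg_right hrp p1
      _ = ∏ e : Spec.E N, (r e * wI b (h (tT e) - h (tS e)) ^ 2) := Finset.prod_mul_distrib.symm
      _ ≤ _ := Finset.prod_le_prod (fun e _ => mul_nonneg (hr0 e) (sq_nonneg _)) fun e _ => hE e
  have p2 : 0 ≤ ∏ v : Spec.V N, Spec.aT (N := N) (ξ : ℝ) 0 v (h v) ^ 2 :=
    Finset.prod_nonneg fun _ _ => sq_nonneg _
  have p3 : 0 ≤ ∏ e : Spec.E N, (wI b ((h + δ) (tT e) - (h + δ) (tS e)) *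
        wI b ((h - δ) (tT e) - (h - δ) (tS e))) :=
    Finset.prod_nonneg fun _ _ => mul_nonneg (H353.wI_nonneg hb.le _) (H353.wI_nonneg hb.le _)
  calc cT b ^ 4 * Wo b ξ h ^ 2
      = (cT b ^ 4 * ∏ e : Spec.E N, wI b (h (tT e) - h (tS e)) ^ 2) *
          ∏ v : Spec.V N, Spec.aT (N := N) (ξ : ℝ) 0 v (h v) ^ 2 := by
        unfold Wo
        rw [Finset.prod_pow, Finset.prod_pow]
        ring
    _ ≤ (∏ e : Spec.E N, (wI b ((h + δ) (tT e) - (h + δ) (tS e)) *
          wI b ((h - δ) (tT e) - (h - δ) (tS e)))) * (Real.exp 1 *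
      ∏ v : Spec.V N, (Spec.aT (N := N) (ξ : ℝ) 0 v ((h + δ) v) *
        Spec.aT (N := N) (ξ : ℝ) 0 v ((h - δ) v))) := mul_le_mul hP hA p2 p3
    _ = _ := by
        unfold Wo
        rw [Finset.prod_mul_distrib, Finset.prod_mul_distrib]
        ring

/-- the constant of the finite energy -/
noncomputable def cE (b : ℝ) : ℝ := Real.exp 1 / cT b ^ 4

theorem one_le_cE {b : ℝ} (hb : 0 < b) : 1 ≤ cE b := by
  unfold cE
  rw [le_div_iff₀ (pow_pos (cT_pos hb) 4), one_mul]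
  have h1 : cT b ^ 4 ≤ 1 := pow_le_one₀ (cT_pos hb).le (cT_le_one b)
  have h2 : (1 : ℝ) ≤ Real.exp 1 := Real.one_le_exp zero_le_one
  linarith

theorem Wo_le {b : ℝ} (hb : 0 < b) {ξ : ℕ} (hξ : 0 < ξ) (h : Spec.V N → ℤ) (u : Spec.V N) :
    Wo b ξ h ≤ cE b * (Wo b ξ (h + Pi.single u 1) + Wo b ξ (h - Pi.single u 1)) := by
  have h1 := energy hb hξ h u
  set A := Wo b ξ (h + Pi.single u 1) with hA
  set B := Wo b ξ (h - Pi.single u 1) with hB
  have hA0 : 0 ≤ A := Wo_nonneg hb.le _ _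
  have hB0 : 0 ≤ B := Wo_nonneg hb.le _ _
  have hc := pow_pos (cT_pos hb) 4
  have h2 : Wo b ξ h ^ 2 ≤ cE b * (A * B) := by
    unfold cE
    rw [div_mul_eq_mul_div, le_div_iff₀ hc]
    linarith
  have h3 := one_le_cE hb
  refine (pow_le_pow_iff_left₀ (Wo_nonneg hb.le _ _) (by positivity) two_ne_zero).1 (h2.trans ?_)
  have h4 : A * B ≤ (A + B) ^ 2 := by nlinarith [mul_nonneg hA0 hB0, sq_nonneg A, sq_nonneg B]
  calc cE b * (A * B) ≤ cE b * (A + B) ^ 2 := mul_le_mul_of_nonneg_left h4 (by linarith)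
    _ ≤ (cE b * cE b) * (A + B) ^ 2 :=
        mul_le_mul_of_nonneg_right (by nlinarith) (sq_nonneg _)
    _ = _ := by ring

/-- a site is positive with probability bounded from below -/
theorem pos_ge {b : ℝ} (hb : 0 < b) {ξ : ℕ} (hξ : 0 < ξ) (u : Spec.V N) :
    Ex (Spec.σ2 N b ξ hb.le 0) (fun _ _ => 1) ≤ ENNReal.ofReal (2 * cE b + 2) *
      Ex (Spec.σ2 N b ξ hb.le 0) (fun x _ => ind (0 < (x u).1 - (x u).2)) := by
  classical
  set σ := Spec.σ2 N b ξ hb.le 0 with hσ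
  set P := Ex σ (fun x _ => ind (0 < (x u).1 - (x u).2)) with hP
  have hc := one_le_cE hb
  -- the swap
  have hm : Ex σ (fun x _ => ind ((x u).1 - (x u).2 < 0)) = P := by
    rw [hP, ← H576.Ex_swap]
    refine H576.Ex_congr fun x om _ => H576.ind_congr ?_
    show (x u).2 - (x u).1 < 0 ↔ 0 < (x u).1 - (x u).2
    omega
  set δ : Spec.V N → ℤ × ℤ := Pi.single u (1, 0) with hδ
  have hf : ∀ x : Spec.V N → ℤ × ℤ, (fun v => ((x + δ) v).1) = (fun v => (x v).1) + Pi.single u 1 := by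
    intro x
    funext v
    by_cases hv : v = u
    · subst hv
      simp [hδ]
    · simp [hδ, Pi.single_eq_of_ne hv]
  have hf2 : ∀ x : Spec.V N → ℤ × ℤ, (fun v => ((x + δ) v).2) = (fun v => (x v).2) := by
    intro x
    funext v
    by_cases hv : v = u
    · subst hv
      simp [hδ]
    · simp [hδ, Pi.single_eq_of_ne hv]
  have hg : ∀ x : Spec.V N → ℤ × ℤ, (fun v => ((x - δ) v).1) = (fun v => (x v).1) - Pi.single u 1 := by
    intro x
    funext v
    by_cases hv : v = u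
    · subst hv
      simp [hδ]
    · simp [hδ, Pi.single_eq_of_ne hv]
  have hg2 : ∀ x : Spec.V N → ℤ × ℤ, (fun v => ((x - δ) v).2) = (fun v => (x v).2) := by
    intro x
    funext v
    by_cases hv : v = u
    · subst hv
      simp [hδ]
    · simp [hδ, Pi.single_eq_of_ne hv]
  have htot : ∀ x : Spec.V N → ℤ × ℤ, σ.tot x ≤ cE b * (σ.tot (x + δ) + σ.tot (x - δ)) := by
    intro x
    rw [hσ, tot_two, tot_two, tot_two, hf, hf2, hg, hg2]
    have h1 := mul_le_mul_of_nonneg_right (Wo_le hb hξ (fun v => (x v).1) u)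
      (Wo_nonneg hb.le ξ (fun v => (x v).2))
    refine h1.trans (le_of_eq ?_)
    ring
  set F : (Spec.V N → ℤ × ℤ) → ℝ≥0∞ := fun y =>
    ENNReal.ofReal (σ.tot y) * ind (0 < (y u).1 - (y u).2) with hF
  set G : (Spec.V N → ℤ × ℤ) → ℝ≥0∞ := fun y =>
    ENNReal.ofReal (σ.tot y) * ind ((y u).1 - (y u).2 < 0) with hG
  have h0 : Ex σ (fun x _ => ind ((x u).1 - (x u).2 = 0)) ≤
      ENNReal.ofReal (cE b) * (P + P) := by
    have e1 : ∑' x, F (x + δ) = P := by
      rw [hP, Ex_heights]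
      exact (Equiv.addRight δ).tsum_eq F
    have e2 : ∑' x, G (x - δ) = P := by
      rw [← hm, Ex_heights]
      exact (Equiv.subRight δ).tsum_eq G
    rw [Ex_heights]
    calc ∑' x, ENNReal.ofReal (σ.tot x) * ind ((x u).1 - (x u).2 = 0)
        ≤ ∑' x, ENNReal.ofReal (cE b) * (F (x + δ) + G (x - δ)) := by
          refine ENNReal.tsum_le_tsum fun x => ?_
          by_cases hx : (x u).1 - (x u).2 = 0
          · have k1 : 0 < ((x + δ) u).1 - ((x + δ) u).2 := by
              have : ((x + δ) u) = x u + (1, 0) := by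
                rw [Pi.add_apply, hδ, Pi.single_eq_same]
              rw [this, Prod.fst_add, Prod.snd_add]
              omega
            have k2 : ((x - δ) u).1 - ((x - δ) u).2 < 0 := by
              have : ((x - δ) u) = x u - (1, 0) := by
                rw [Pi.sub_apply, hδ, Pi.single_eq_same]
              rw [this, Prod.fst_sub, Prod.snd_sub]
              omega
            simp only [hF, hG]
            rw [H576.ind_true hx, H576.ind_true k1, H576.ind_true k2, mul_one, mul_one, mul_one,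
              ← ENNReal.ofReal_add (σ.tot_nonneg _) (σ.tot_nonneg _),
              ← ENNReal.ofReal_mul (by linarith)]
            exact ENNReal.ofReal_le_ofReal (htot x)
          · rw [H576.ind_false hx, mul_zero]
            exact zero_le
      _ = ENNReal.ofReal (cE b) * (P + P) := by
          rw [ENNReal.tsum_mul_left, ENNReal.tsum_add, e1, e2]
  have hZ : Ex σ (fun _ _ => 1) ≤ Ex σ (fun x _ => ind ((x u).1 - (x u).2 = 0)) + (P + P) := by
    have hPP : P + P = P + Ex σ (fun x _ => ind ((x u).1 - (x u).2 < 0)) := by rw [hm]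
    rw [hPP, hP, ← H576.Ex_add, ← H576.Ex_add]
    refine H576.Ex_mono fun x om _ => ?_
    rcases lt_trichotomy ((x u).1 - (x u).2) 0 with h | h | h
    · rw [H576.ind_true h]
      exact le_add_left (le_add_left le_rfl)
    · rw [H576.ind_true h]
      exact le_add_right le_rfl
    · rw [H576.ind_true h]
      exact le_add_left (le_add_right le_rfl)
  refine hZ.trans ((add_le_add h0 le_rfl).trans (le_of_eq ?_))
  rw [ENNReal.ofReal_add (by linarith) (by norm_num), ENNReal.ofReal_mul (by norm_num),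
    show ENNReal.ofReal 2 = 2 by simp]
  ring

/-! ### the gradient -/

theorem Ex_fst {b : ℝ} (hb : 0 ≤ b) (ξ : ℕ) (F : (Spec.V N → ℤ) → ℝ≥0∞) :
    Ex (Spec.σ2 N b ξ hb 0) (fun x _ => F fun v => (x v).1) =
      (∑' h : Spec.V N → ℤ, ENNReal.ofReal (Wo b ξ h) * F h) *
        ∑' h : Spec.V N → ℤ, ENNReal.ofReal (Wo b ξ h) := by
  rw [Ex_heights, ← (Equiv.arrowProdEquivProdArrow (Spec.V N) (fun _ => ℤ)
    (fun _ => ℤ)).symm.tsum_eq, ENNReal.tsum_prod' (f := fun p => _), ← ENNReal.tsum_mul_right]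
  refine tsum_congr fun h => ?_
  rw [← ENNReal.tsum_mul_left]
  refine tsum_congr fun h' => ?_
  have e1 : (Spec.σ2 N b ξ hb 0).tot ((Equiv.arrowProdEquivProdArrow (Spec.V N) (fun _ => ℤ)
      (fun _ => ℤ)).symm (h, h')) = Wo b ξ h * Wo b ξ h' := by
    rw [tot_two]
    rfl
  rw [e1, ENNReal.ofReal_mul (Wo_nonneg hb ξ h)]
  show ENNReal.ofReal (Wo b ξ h) * ENNReal.ofReal (Wo b ξ h') * F h =
    ENNReal.ofReal (Wo b ξ h) * F h * ENNReal.ofReal (Wo b ξ h')
  ring

theorem grad_exp {b : ℝ} (hb : 0 ≤ b) {ξ : ℕ} (hξ : 0 < ξ) (e : Spec.E N) (c : ℝ) :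
    (Summable fun h : Spec.V N → ℤ => Wo b ξ h * Real.exp (c * ((h (tT e) : ℝ) - h (tS e)))) ∧
    ∑' h : Spec.V N → ℤ, Wo b ξ h * Real.exp (c * ((h (tT e) : ℝ) - h (tS e))) ≤
      Real.exp (b * (Real.cosh c - 1)) * ∑' h : Spec.V N → ℤ, Wo b ξ h := by
  classical
  have h := H77.bare_le tS tT (c := fun _ : Spec.E N => b) (fun _ => hb) ∅
    (m := SpecC.ms (N := N) (ξ : ℝ)) (fun x _ => H857.ms_pos hξ x) (Pi.single e c) 0
  have e0 : ∀ h : Spec.V N → ℤ, (∏ e : Spec.E N, wI b (h (tT e) - h (tS e))) *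
      (∏ x, H77.sA ∅ (SpecC.ms (N := N) (ξ : ℝ)) x (h x)) = Wo b ξ h := by
    intro h
    unfold Wo
    congr 1
    refine Finset.prod_congr rfl fun x _ => ?_
    unfold H77.sA Spec.aT
    rw [if_neg (Finset.notMem_empty x)]
    congr 1
    simp
  have e1 : ∀ h : Spec.V N → ℤ, ∑ e', (Pi.single e c : Spec.E N → ℝ) e' *
      ((h (tT e') : ℝ) - h (tS e')) + ∑ x, (0 : Spec.V N → ℝ) x * h x =
      c * ((h (tT e) : ℝ) - h (tS e)) := by
    intro h
    rw [Finset.sum_eq_single e (fun e' _ he' => by rw [Pi.single_eq_of_ne he', zero_mul])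
      (fun h => absurd (Finset.mem_univ e) h), Pi.single_eq_same]
    simp
  have e2 : ∑ e', b * (Real.cosh ((Pi.single e c : Spec.E N → ℝ) e') - 1) +
      ∑ x ∈ (∅ : Finset (Spec.V N))ᶜ, (0 : Spec.V N → ℝ) x ^ 2 /
        (2 * SpecC.ms (N := N) (ξ : ℝ) x) = b * (Real.cosh c - 1) := by
    rw [Finset.sum_eq_single e (fun e' _ he' => by
        rw [Pi.single_eq_of_ne he', Real.cosh_zero, sub_self, mul_zero])
      (fun h => absurd (Finset.mem_univ e) h), Pi.single_eq_same]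
    simp
  simp only [e0, e1, e2] at h
  exact h

theorem grad_tail {b : ℝ} (hb : 0 ≤ b) {ξ : ℕ} (hξ : 0 < ξ) (e : Spec.E N) (K : ℕ) :
    Ex (Spec.σ2 N b ξ hb 0) (fun x _ => ind ((K : ℤ) < |(x (tT e)).1 - (x (tS e)).1|)) ≤
      ENNReal.ofReal (2 * Real.exp (b * (Real.cosh 1 - 1) - K)) *
        Ex (Spec.σ2 N b ξ hb 0) (fun _ _ => 1) := by
  have h1 := grad_exp hb hξ e 1
  have h2 := grad_exp hb hξ e (-1)
  have h0 := grad_exp hb hξ e 0
  rw [Real.cosh_neg] at h2
  simp only [zero_mul, Real.exp_zero, mul_one] at h0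
  have s0 := h0.1
  set Z : ℝ := ∑' h : Spec.V N → ℤ, Wo b ξ h with hZ
  have hZe : ∑' h : Spec.V N → ℤ, ENNReal.ofReal (Wo b ξ h) = ENNReal.ofReal Z :=
    (ENNReal.ofReal_tsum_of_nonneg (fun h => Wo_nonneg hb ξ h) s0).symm
  have hZ0 : 0 ≤ Z := tsum_nonneg fun h => Wo_nonneg hb ξ h
  have e1 := Ex_fst hb ξ (fun h : Spec.V N → ℤ => ind ((K : ℤ) < |h (tT e) - h (tS e)|))
  have e2 := Ex_fst (N := N) hb ξ (fun _ => 1)
  simp only [mul_one] at e2
  rw [e1, e2, hZe, ← mul_assoc]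
  refine mul_le_mul_left ?_ _
  set g : (Spec.V N → ℤ) → ℝ := fun h => (h (tT e) : ℝ) - h (tS e) with hg
  calc ∑' h : Spec.V N → ℤ, ENNReal.ofReal (Wo b ξ h) * ind ((K : ℤ) < |h (tT e) - h (tS e)|)
      ≤ ∑' h : Spec.V N → ℤ, ENNReal.ofReal (Real.exp (-(K : ℝ)) *
          (Wo b ξ h * Real.exp (1 * g h) + Wo b ξ h * Real.exp (-1 * g h))) := by
        refine ENNReal.tsum_le_tsum fun h => ?_
        by_cases hK : (K : ℤ) < |h (tT e) - h (tS e)|
        · rw [H576.ind_true hK, mul_one]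
          refine ENNReal.ofReal_le_ofReal ?_
          have hK' : (K : ℝ) ≤ |g h| := by
            have h3 : ((K : ℤ) : ℝ) < ((|h (tT e) - h (tS e)| : ℤ) : ℝ) := by exact_mod_cast hK
            rw [Int.cast_abs, Int.cast_sub, Int.cast_natCast] at h3
            exact h3.le
          have h4 : 1 ≤ Real.exp (-(K : ℝ)) * (Real.exp (1 * g h) + Real.exp (-1 * g h)) := by
            have h5 : Real.exp K ≤ Real.exp (1 * g h) + Real.exp (-1 * g h) := by
              refine (Real.exp_le_exp.2 hK').trans ?_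
              rcases abs_choice (g h) with h6 | h6
              · rw [h6, one_mul]
                linarith [Real.exp_pos (-1 * g h)]
              · rw [h6, neg_one_mul]
                linarith [Real.exp_pos (1 * g h)]
            calc (1 : ℝ) = Real.exp (-(K : ℝ)) * Real.exp K := by
                  rw [← Real.exp_add, neg_add_cancel, Real.exp_zero]
              _ ≤ _ := mul_le_mul_of_nonneg_left h5 (Real.exp_pos _).le
          calc Wo b ξ h = Wo b ξ h * 1 := (mul_one _).symm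
            _ ≤ Wo b ξ h * (Real.exp (-(K : ℝ)) * (Real.exp (1 * g h) + Real.exp (-1 * g h))) :=
                mul_le_mul_of_nonneg_left h4 (Wo_nonneg hb ξ h)
            _ = _ := by ring
        · rw [H576.ind_false hK, mul_zero]
          exact zero_le
    _ = ENNReal.ofReal (∑' h : Spec.V N → ℤ, Real.exp (-(K : ℝ)) *
          (Wo b ξ h * Real.exp (1 * g h) + Wo b ξ h * Real.exp (-1 * g h))) := by
        refine (ENNReal.ofReal_tsum_of_nonneg (fun h => ?_) ((h1.1.add h2.1).mul_left _)).symm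
        have := Wo_nonneg hb ξ h
        positivity
    _ ≤ ENNReal.ofReal (2 * Real.exp (b * (Real.cosh 1 - 1) - K) * Z) := by
        refine ENNReal.ofReal_le_ofReal ?_
        rw [tsum_mul_left, h1.1.tsum_add h2.1]
        calc Real.exp (-(K : ℝ)) * (∑' h : Spec.V N → ℤ, Wo b ξ h * Real.exp (1 * g h) +
              ∑' h : Spec.V N → ℤ, Wo b ξ h * Real.exp (-1 * g h))
            ≤ Real.exp (-(K : ℝ)) * (Real.exp (b * (Real.cosh 1 - 1)) * Z +
                Real.exp (b * (Real.cosh 1 - 1)) * Z) :=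
              mul_le_mul_of_nonneg_left (add_le_add h1.2 h2.2) (Real.exp_pos _).le
          _ = _ := by
              rw [show b * (Real.cosh 1 - 1) - (K : ℝ) = b * (Real.cosh 1 - 1) + -(K : ℝ) from
                sub_eq_add_neg _ _, Real.exp_add]
              ring
    _ = _ := ENNReal.ofReal_mul (by positivity)

end law

/-! ### the edge -/

theorem arith {Z P1 P2 P12 Pe : ℝ≥0∞} {c c' M δ : ℝ} (Z0 : Z ≠ 0) (Zt : Z ≠ ∞) (t1 : P1 ≠ ∞)
    (t2 : P2 ≠ ∞) (t12 : P12 ≠ ∞) (te : Pe ≠ ∞) (hc' : 0 ≤ c') (hc : c' ≤ c) (hc0 : 0 < c)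
    (hM0 : 0 < M) (hδ0 : 0 ≤ δ) (hcδ : c ^ 2 * δ ≤ 1 / 2) (h1 : Z ≤ ENNReal.ofReal c' * P1)
    (h2 : Z ≤ ENNReal.ofReal c' * P2) (hfk : P1 * P2 ≤ Z * P12)
    (h5 : P12 ≤ ENNReal.ofReal M * Pe + ENNReal.ofReal δ * Z) :
    ENNReal.ofReal (1 / (2 * c ^ 2 * M)) * Z ≤ Pe := by
  have r1 : Z.toReal ≤ c' * P1.toReal := by
    have := ENNReal.toReal_mono (ENNReal.mul_ne_top ENNReal.ofReal_ne_top t1) h1
    rwa [ENNReal.toReal_mul, ENNReal.toReal_ofReal hc'] at this
  have r2 : Z.toReal ≤ c' * P2.toReal := by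
    have := ENNReal.toReal_mono (ENNReal.mul_ne_top ENNReal.ofReal_ne_top t2) h2
    rwa [ENNReal.toReal_mul, ENNReal.toReal_ofReal hc'] at this
  have r3 : P1.toReal * P2.toReal ≤ Z.toReal * P12.toReal := by
    have := ENNReal.toReal_mono (ENNReal.mul_ne_top Zt t12) hfk
    rwa [ENNReal.toReal_mul, ENNReal.toReal_mul] at this
  have r4 : P12.toReal ≤ M * Pe.toReal + δ * Z.toReal := by
    have k1 : ENNReal.ofReal M * Pe ≠ ∞ := ENNReal.mul_ne_top ENNReal.ofReal_ne_top te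
    have k2 : ENNReal.ofReal δ * Z ≠ ∞ := ENNReal.mul_ne_top ENNReal.ofReal_ne_top Zt
    have := ENNReal.toReal_mono (ENNReal.add_ne_top.2 ⟨k1, k2⟩) h5
    rwa [ENNReal.toReal_add k1 k2, ENNReal.toReal_mul, ENNReal.toReal_mul,
      ENNReal.toReal_ofReal hM0.le, ENNReal.toReal_ofReal hδ0] at this
  have z0 : 0 < Z.toReal := ENNReal.toReal_pos Z0 Zt
  have q1 : 0 ≤ P1.toReal := ENNReal.toReal_nonneg
  have q2 : 0 ≤ P2.toReal := ENNReal.toReal_nonneg
  have s1 : Z.toReal ≤ c * P1.toReal := r1.trans (mul_le_mul_of_nonneg_right hc q1)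
  have s2 : Z.toReal ≤ c * P2.toReal := r2.trans (mul_le_mul_of_nonneg_right hc q2)
  have s3 : Z.toReal * Z.toReal ≤ Z.toReal * (c ^ 2 * P12.toReal) := by
    calc Z.toReal * Z.toReal ≤ (c * P1.toReal) * (c * P2.toReal) :=
          mul_le_mul s1 s2 z0.le (by positivity)
      _ = c ^ 2 * (P1.toReal * P2.toReal) := by ring
      _ ≤ c ^ 2 * (Z.toReal * P12.toReal) := mul_le_mul_of_nonneg_left r3 (by positivity)
      _ = _ := by ring
  have s4 : Z.toReal ≤ c ^ 2 * P12.toReal := le_of_mul_le_mul_left s3 z0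
  have s5 : c ^ 2 * P12.toReal ≤ c ^ 2 * M * Pe.toReal + 1 / 2 * Z.toReal := by
    calc c ^ 2 * P12.toReal ≤ c ^ 2 * (M * Pe.toReal + δ * Z.toReal) :=
          mul_le_mul_of_nonneg_left r4 (by positivity)
      _ = c ^ 2 * M * Pe.toReal + (c ^ 2 * δ) * Z.toReal := by ring
      _ ≤ _ := by
        have := mul_le_mul_of_nonneg_right hcδ z0.le
        linarith
  have s7 : 1 / (2 * c ^ 2 * M) * Z.toReal ≤ Pe.toReal := by
    rw [div_mul_eq_mul_div, one_mul, div_le_iff₀ (by positivity)]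
    linarith
  have e1 : ENNReal.ofReal Z.toReal = Z := ENNReal.ofReal_toReal Zt
  have e2 : ENNReal.ofReal Pe.toReal = Pe := ENNReal.ofReal_toReal te
  rw [← e1, ← ENNReal.ofReal_mul (by positivity), ← e2]
  exact ENNReal.ofReal_le_ofReal s7

theorem open_le {N : ℕ} [NeZero N] {b B : ℝ} {ξ K : ℕ} (hb : 0 < b) (hB : b ≤ B)
    (e : Spec.E N) :
    Ex (Spec.σ2 N b ξ hb.le 0) (fun x _ => ind (0 < (x (tS e)).1 - (x (tS e)).2 ∧
      0 < (x (tT e)).1 - (x (tT e)).2 ∧ |(x (tT e)).1 - (x (tS e)).1| ≤ (K : ℤ))) ≤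
    ENNReal.ofReal (((K : ℝ) + 1) * (B / 2 + 1) ^ 2) *
      Ex (Spec.σ2 N b ξ hb.le 0) (fun x om => ind (e ∈ plus (Spec.σ2 N b ξ hb.le 0) x om)) := by
  have hB0 : 0 < B := hb.trans_le hB
  refine edge_open (Spec.σ2 N b ξ hb.le 0) e (by positivity) fun x hx => ?_
  obtain ⟨k1, k2, k3⟩ := hx
  refine ⟨k1, k2, ?_⟩
  have k4 := four_point hb (a := (x (tS e)).1) (a' := (x (tS e)).2) (c := (x (tT e)).1)
    (c' := (x (tT e)).2) (by omega) (by omega)
  have k5 : (|(((x (tT e)).1 - (x (tS e)).1 : ℤ) : ℝ)| + 1) * (b / 2 + 1) ^ 2 ≤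
      ((K : ℝ) + 1) * (B / 2 + 1) ^ 2 := by
    refine mul_le_mul ?_ (pow_le_pow_left₀ (by positivity) (by linarith) 2) (by positivity)
      (by positivity)
    have : ((|(x (tT e)).1 - (x (tS e)).1| : ℤ) : ℝ) ≤ ((K : ℤ) : ℝ) := by exact_mod_cast k3
    rw [Int.cast_abs, Int.cast_natCast] at this
    linarith
  have k6 : (Spec.σ2 N b ξ hb.le 0).op e (x (tS e)) (x (tT e)) =
    max (wI b ((x (tT e)).1 - (x (tS e)).1) * wI b ((x (tT e)).2 - (x (tS e)).2) -
    wI b ((x (tT e)).1 - (x (tS e)).2) * wI b ((x (tT e)).2 - (x (tS e)).1)) 0 := rfl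
  have k9 : 0 ≤ (Spec.σ2 N b ξ hb.le 0).op e (x (tS e)) (x (tT e)) :=
    (Spec.σ2 N b ξ hb.le 0).op_nonneg _ _ _
  show wI b ((x (tT e)).1 - (x (tS e)).1) * wI b ((x (tT e)).2 - (x (tS e)).2) ≤
    ((K : ℝ) + 1) * (B / 2 + 1) ^ 2 * (Spec.σ2 N b ξ hb.le 0).op e (x (tS e)) (x (tT e))
  refine k4.trans ((mul_le_mul_of_nonneg_left ?_ (by positivity)).trans
    (mul_le_mul_of_nonneg_right k5 k9))
  rw [k6]
  exact le_max_left _ _

theorem split_le {N : ℕ} [NeZero N] {b : ℝ} {ξ : ℕ} (K : ℕ) (hb : 0 ≤ b) (e : Spec.E N) :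
    Ex (Spec.σ2 N b ξ hb 0) (fun x _ => ind (0 < (x (tS e)).1 - (x (tS e)).2) *
      ind (0 < (x (tT e)).1 - (x (tT e)).2)) ≤
    Ex (Spec.σ2 N b ξ hb 0) (fun x _ => ind (0 < (x (tS e)).1 - (x (tS e)).2 ∧
      0 < (x (tT e)).1 - (x (tT e)).2 ∧ |(x (tT e)).1 - (x (tS e)).1| ≤ (K : ℤ))) +
    Ex (Spec.σ2 N b ξ hb 0) (fun x _ => ind ((K : ℤ) < |(x (tT e)).1 - (x (tS e)).1|)) := by
  rw [← H576.Ex_add]
  refine H576.Ex_mono fun x om _ => ?_
  by_cases k1 : 0 < (x (tS e)).1 - (x (tS e)).2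
  · by_cases k2 : 0 < (x (tT e)).1 - (x (tT e)).2
    · by_cases k3 : |(x (tT e)).1 - (x (tS e)).1| ≤ (K : ℤ)
      · rw [H576.ind_true k1, H576.ind_true k2, H576.ind_true (And.intro k1 (And.intro k2 k3)),
          one_mul]
        exact le_self_add
      · rw [H576.ind_true k1, H576.ind_true k2, H576.ind_true (not_le.1 k3), one_mul]
        exact le_add_self
    · rw [H576.ind_false k2, mul_zero]
      exact zero_le
  · rw [H576.ind_false k1, zero_mul]
    exact zero_le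

theorem mono_pos {N : ℕ} (u : Spec.V N) : H576.MonoF le2
    (fun (x : Spec.V N → ℤ × ℤ) (_ : Finset (Spec.E N)) => ind (0 < (x u).1 - (x u).2)) := by
  intro x x' om om' hx _
  refine H576.ind_mono fun h => ?_
  have h1 := (hx u).1
  have h2 := (hx u).2
  omega

theorem edge_at {N : ℕ} [NeZero N] {b B c δ : ℝ} {ξ K : ℕ} (hb : 0 < b) (hξ : 0 < ξ) (hB : b ≤ B)
    (hc : 2 * cE b + 2 ≤ c) (hδ : 2 * Real.exp (b * (Real.cosh 1 - 1) - K) ≤ δ)
    (hcδ : c ^ 2 * δ ≤ 1 / 2) (e : Spec.E N) :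
    ENNReal.ofReal (1 / (2 * c ^ 2 * (((K : ℝ) + 1) * (B / 2 + 1) ^ 2))) *
      Ex (Spec.σ2 N b ξ hb.le 0) (fun _ _ => 1) ≤
      Ex (Spec.σ2 N b ξ hb.le 0) (fun x om => ind (e ∈ plus (Spec.σ2 N b ξ hb.le 0) x om)) := by
  have Mf := H857.fk_T (N := N) hb hξ 0
  have hB0 : 0 < B := hb.trans_le hB
  have hcE := one_le_cE hb
  have hc0 : 0 < c := by linarith
  have hδ0 : 0 ≤ δ := le_trans (by positivity) hδ
  have fin : ∀ F : (Spec.V N → ℤ × ℤ) → Finset (Spec.E N) → ℝ≥0∞, (∀ x om, F x om ≤ 1) →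
      Ex (Spec.σ2 N b ξ hb.le 0) F ≠ ∞ := fun F hF =>
    ne_top_of_le_ne_top Mf.Zt (H576.Ex_mono fun x om _ => hF x om)
  have hfk := Mf.fkg (fun (x : Spec.V N → ℤ × ℤ) (_ : Finset (Spec.E N)) =>
    ind (0 < (x (tS e)).1 - (x (tS e)).2)) (fun (x : Spec.V N → ℤ × ℤ) (_ : Finset (Spec.E N)) =>
    ind (0 < (x (tT e)).1 - (x (tT e)).2)) (mono_pos (tS e)) (mono_pos (tT e))
  beta_reduce at hfk
  have h1 := pos_ge hb hξ (tS e)
  have h2 := pos_ge hb hξ (tT e)
  have h5 := (split_le (ξ := ξ) K hb.le e).trans (add_le_add (open_le hb hB e)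
      ((grad_tail hb.le hξ e K).trans (mul_le_mul' (ENNReal.ofReal_le_ofReal hδ) le_rfl)))
  have t1 := fin (fun x _ => ind (0 < (x (tS e)).1 - (x (tS e)).2)) fun _ _ =>
    H576.ind_le_one _
  have t2 := fin (fun x _ => ind (0 < (x (tT e)).1 - (x (tT e)).2)) fun _ _ =>
    H576.ind_le_one _
  have t12 := fin (fun x _ => ind (0 < (x (tS e)).1 - (x (tS e)).2) *
    ind (0 < (x (tT e)).1 - (x (tT e)).2)) fun _ _ =>
    mul_le_one' (H576.ind_le_one _) (H576.ind_le_one _)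
  have te := fin (fun x om => ind (e ∈ plus (Spec.σ2 N b ξ hb.le 0) x om)) fun _ _ =>
    H576.ind_le_one _
  exact arith Mf.Z0 Mf.Zt t1 t2 t12 te (by linarith) hc hc0 (by positivity) hδ0 hcδ h1 h2 hfk h5

/-- uniform in the coupling -/
theorem edge_pos (b1 b2 : ℝ) (hb1 : 0 < b1) : ∃ β : ℝ, 0 < β ∧ ∀ (N : ℕ) [NeZero N] (b : ℝ)
    (ξ : ℕ) (hb : 0 < b) (_ : 0 < ξ), b1 ≤ b → b ≤ b2 → ∀ e : Spec.E N,
    ENNReal.ofReal β * Ex (Spec.σ2 N b ξ hb.le 0) (fun _ _ => 1) ≤
      Ex (Spec.σ2 N b ξ hb.le 0) (fun x om => ind (e ∈ plus (Spec.σ2 N b ξ hb.le 0) x om)) := by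
  set cm : ℝ := min (12 / (b2 ^ 2 + 24)) ((4 * b1 / (b2 ^ 2 + 8)) ^ 2) with hcm
  have hcm0 : 0 < cm := lt_min (by positivity) (by positivity)
  set c : ℝ := 2 * (Real.exp 1 / cm ^ 4) + 2 with hc
  have hc0 : 0 < c := by positivity
  obtain ⟨K, hK⟩ := exists_nat_ge (Real.log (4 * c ^ 2) + |b2| * (Real.cosh 1 - 1))
  refine ⟨1 / (2 * c ^ 2 * (((K : ℝ) + 1) * (|b2| / 2 + 1) ^ 2)), by positivity, ?_⟩
  intro N _ b ξ hb hξ h1 h2 e
  have hcosh : 0 ≤ Real.cosh 1 - 1 := by linarith [Real.one_le_cosh 1]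
  have hb2 : b ≤ |b2| := h2.trans (le_abs_self _)
  refine edge_at (δ := 1 / (2 * c ^ 2)) hb hξ hb2 ?_ ?_ ?_ e
  · have k1 : cm ≤ cT b := by
      have hsq : b ^ 2 ≤ b2 ^ 2 := pow_le_pow_left₀ hb.le h2 2
      refine min_le_min ?_ ?_
      · exact div_le_div_of_nonneg_left (by norm_num) (by positivity) (by linarith)
      · refine pow_le_pow_left₀ (by positivity) ?_ 2
        exact div_le_div₀ (by positivity) (by linarith) (by positivity) (by linarith)
    have k2 : cE b ≤ Real.exp 1 / cm ^ 4 := by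
      unfold cE
      exact div_le_div_of_nonneg_left (Real.exp_pos _).le (by positivity)
        (pow_le_pow_left₀ hcm0.le k1 4)
    linarith
  · have k1 : b * (Real.cosh 1 - 1) - K ≤ -Real.log (4 * c ^ 2) := by
      have := mul_le_mul_of_nonneg_right hb2 hcosh
      linarith
    have k2 := Real.exp_le_exp.2 k1
    rw [Real.exp_neg, Real.exp_log (by positivity)] at k2
    calc 2 * Real.exp (b * (Real.cosh 1 - 1) - K) ≤ 2 * (4 * c ^ 2)⁻¹ := by linarith
      _ = 1 / (2 * c ^ 2) := by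
        field_simp
        ring
  · have : c ^ 2 * (1 / (2 * c ^ 2)) = 1 / 2 := by field_simp
    rw [this]

/-- **one edge of the periodic lift**: the hypothesis `c1 ≤ P.L 1 0` of the RSW theorem -/
theorem L_one (b1 b2 : ℝ) (hb1 : 0 < b1) : ∃ β : ℝ, 0 < β ∧ ∀ (N : ℕ) [NeZero N] (b : ℝ)
    (ξ : ℕ) (hb : 0 < b) (hξ : 0 < ξ), b1 ≤ b → b ≤ b2 → β ≤ (ppT N b ξ hb hξ).L 1 0 := by
  obtain ⟨β, hβ, h⟩ := edge_pos b1 b2 hb1
  refine ⟨β, hβ, ?_⟩
  intro N _ b ξ hb hξ h1 h2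
  have h3 := h N b ξ hb hξ h1 h2 ((0, 0), true)
  have M := H857.fk_T (N := N) hb hξ 0
  show β ≤ pQ N b ξ hb.le 0 (LRc 0 1 0 0)
  unfold pQ
  refine (ENNReal.ofReal_le_iff_le_toReal (quot_ne_top hb.le 0 _)).1 ?_
  rw [ENNReal.le_div_iff_mul_le (Or.inl M.Z0) (Or.inl M.Zt)]
  refine h3.trans (H576.Ex_mono fun x om _ => H576.ind_mono fun he => ?_)
  have hp := H576.plus_pos he
  have p1 : 0 < (x (0, 0)).1 - (x (0, 0)).2 := hp.1
  have p2 : 0 < (x ((0, 0) + dir N true)).1 - (x ((0, 0) + dir N true)).2 := hp.2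
  set D : Spec.V N → ℤ := fun v => (x v).1 - (x v).2 with hD
  set P := plus (Spec.σ2 N b ξ hb.le 0) x om with hP
  have e0 : red N (0, 0) = (0, 0) := by
    unfold red
    simp
  have e1 : red N (1, 0) = (0, 0) := by
    unfold red
    simp
  have e2 : red N (2, 0) = (0, 0) + dir N true := by
    unfold red dir
    simp
  have m0 : ((0, 0) : ℤ × ℤ) ∈ Lf D P ∩ rc 0 1 0 0 := by
    refine ⟨Or.inl ⟨rfl, rfl, ?_⟩, ?_⟩
    · rw [e0]; exact p1
    · refine ⟨by norm_num, by norm_num, by norm_num, by norm_num⟩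
  have m1 : ((1, 0) : ℤ × ℤ) ∈ Lf D P ∩ rc 0 1 0 0 := by
    refine ⟨Or.inr (Or.inl ⟨rfl, rfl, ?_⟩), ?_⟩
    · rw [e1]; exact he
    · refine ⟨by norm_num, by norm_num, by norm_num, by norm_num⟩
  have m2 : ((2, 0) : ℤ × ℤ) ∈ Lf D P ∩ rc 0 1 0 0 := by
    refine ⟨Or.inl ⟨rfl, rfl, ?_⟩, ?_⟩
    · rw [e2]; exact p2
    · refine ⟨by norm_num, by norm_num, by norm_num, by norm_num⟩
  refine ⟨(0, 0), (2, 0), ⟨m0, ?_⟩, by norm_num, by norm_num⟩
  refine (Relation.ReflTransGen.single ⟨?_, m1⟩).tail ⟨?_, m2⟩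
  · exact Or.inl ⟨rfl, Or.inl rfl⟩
  · exact Or.inl ⟨rfl, Or.inl rfl⟩

end Vale.Agent.P159.TM.H426
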