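import Vale.Agent.P159.TM.H426.Edge
import Vale.Agent.P159.TM.H574.Circ

/-!
P159 / T1 (helper426): the hypothesis `EdgeTor` of `TM/H574/Circ.lean`.
-/

namespace Vale.Agent.P159.TM.H426

/-- **one edge**, in the letters of helper574 -/
theorem edgeTor {b1 b2 : ℝ} (hb1 : 0 < b1) : H574.EdgeTor b1 b2 := by
  obtain ⟨β, hβ, h⟩ := L_one b1 b2 hb1
  exact ⟨β, hβ, 0, fun N _ b hb ξ hξ h1 h2 _ _ => h N b ξ hb hξ h1 h2⟩

/-- `Circ` with the arms as the only input -/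
theorem circ {b1 b2 a : ℝ} (hb1 : 0 < b1) (hA : H574.ArmTor b1 b2 a) : H58.Circ b1 b2 a :=
  H574.circ hb1 hA (edgeTor hb1)

end Vale.Agent.P159.TM.H426
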