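import Vale.Agent.P159.TM.H426.Fkg

/-!
E5: the influence inequality. Two copies in the FK form; the copies are exchanged on the cluster
of one vertex.
-/

open Finset

namespace Vale.Agent.P159.TM.H426

section clusters

variable {V E : Type*} (s t : E → V)

/-- `a` and `b` are the ends of an edge of `S` -/
def Ad (S : Finset E) (a b : V) : Prop := ∃ e ∈ S, (s e = a ∧ t e = b) ∨ (s e = b ∧ t e = a)

/-- `x` and `y` are joined by open edges -/
def Cn (S : Finset E) (x y : V) : Prop := Relation.ReflTransGen (Ad s t S) x y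

variable {s t}

lemma Ad.symm {S : Finset E} {a b : V} (h : Ad s t S a b) : Ad s t S b a := by
  obtain ⟨e, he, h1 | h1⟩ := h
  · exact ⟨e, he, Or.inr h1⟩
  · exact ⟨e, he, Or.inl h1⟩

lemma Cn.refl (S : Finset E) (x : V) : Cn s t S x x := Relation.ReflTransGen.refl

lemma Cn.trans {S : Finset E} {x y z : V} (h : Cn s t S x y) (h' : Cn s t S y z) : Cn s t S x z :=
  Relation.ReflTransGen.trans h h'

lemma Cn.symm {S : Finset E} {x y : V} (h : Cn s t S x y) : Cn s t S y x := by
  induction h with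
  | refl => exact Cn.refl _ _
  | tail _ h2 ih => exact Relation.ReflTransGen.head h2.symm ih

lemma Cn.mono {S T : Finset E} (hST : S ⊆ T) {x y : V} (h : Cn s t S x y) : Cn s t T x y := by
  induction h with
  | refl => exact Cn.refl _ _
  | tail _ h2 ih =>
    obtain ⟨e, he, h1⟩ := h2
    exact Relation.ReflTransGen.tail ih ⟨e, hST he, h1⟩

/-- a set of vertices which no open edge leaves -/
def Cld (s t : E → V) (S : Finset E) (C : Set V) : Prop := ∀ e ∈ S, (s e ∈ C ↔ t e ∈ C)

lemma cld_cluster (S : Finset E) (x : V) : Cld s t S {y | Cn s t S x y} := by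
  intro e he
  constructor
  · intro h
    exact Relation.ReflTransGen.tail h ⟨e, he, Or.inl ⟨rfl, rfl⟩⟩
  · intro h
    exact Relation.ReflTransGen.tail h ⟨e, he, Or.inr ⟨rfl, rfl⟩⟩

lemma Cld.union {S : Finset E} {C D : Set V} (h : Cld s t S C) (h' : Cld s t S D) :
    Cld s t S (C ∪ D) := fun e he => by
  simp only [Set.mem_union, h e he, h' e he]

lemma Cld.mem_iff {S : Finset E} {C : Set V} (h : Cld s t S C) {x y : V} (hxy : Cn s t S x y) :
    x ∈ C ↔ y ∈ C := by
  induction hxy with
  | refl => exact Iff.rfl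
  | tail _ h2 ih =>
    refine ih.trans ?_
    obtain ⟨e, he, ⟨h3, h4⟩ | ⟨h3, h4⟩⟩ := h2
    · rw [← h3, ← h4]; exact h e he
    · rw [← h3, ← h4]; exact (h e he).symm

end clusters

section swap

variable {V : Type*}

open Classical in
/-- exchange of the copies on `C` -/
noncomputable def fl (C : Set V) (H : V → ℤ × ℤ) : V → ℤ × ℤ :=
  fun x => if x ∈ C then (H x).swap else H x

lemma fl_mem {C : Set V} {H : V → ℤ × ℤ} {x : V} (h : x ∈ C) : fl C H x = (H x).swap := if_pos h

lemma fl_not {C : Set V} {H : V → ℤ × ℤ} {x : V} (h : x ∉ C) : fl C H x = H x := if_neg h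

lemma fl_fl (C : Set V) (H : V → ℤ × ℤ) : fl C (fl C H) = H := by
  funext x
  by_cases h : x ∈ C
  · rw [fl_mem h, fl_mem h, Prod.swap_swap]
  · rw [fl_not h, fl_not h]

/-- the exchange as a bijection -/
noncomputable def flE (C : Set V) : (V → ℤ × ℤ) ≃ (V → ℤ × ℤ) :=
  { toFun := fl C, invFun := fl C, left_inv := fl_fl C, right_inv := fl_fl C }

lemma fu_swap (w : ℤ → ℝ) (p q : ℤ × ℤ) : fu w p.swap q.swap = fu w p q := by
  unfold fu; simp only [Prod.fst_swap, Prod.snd_swap]; ring

lemma sw_swap (w : ℤ → ℝ) (p q : ℤ × ℤ) : sw w p.swap q.swap = sw w p q := by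
  unfold sw; simp only [Prod.fst_swap, Prod.snd_swap]; ring

lemma fu_swap_left (w : ℤ → ℝ) (p q : ℤ × ℤ) : fu w p.swap q = sw w p q := by
  unfold fu sw; simp only [Prod.fst_swap, Prod.snd_swap]; ring

lemma sw_swap_left (w : ℤ → ℝ) (p q : ℤ × ℤ) : sw w p.swap q = fu w p q := by
  unfold fu sw; simp only [Prod.fst_swap, Prod.snd_swap]; ring

lemma fu_swap_right (w : ℤ → ℝ) (p q : ℤ × ℤ) : fu w p q.swap = sw w p q := by
  unfold fu sw; simp only [Prod.fst_swap, Prod.snd_swap]

lemma sw_swap_right (w : ℤ → ℝ) (p q : ℤ × ℤ) : sw w p q.swap = fu w p q := by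
  unfold fu sw; simp only [Prod.fst_swap, Prod.snd_swap]

lemma op_swap (w : ℤ → ℝ) (p q : ℤ × ℤ) : op w p.swap q.swap = op w p q := by
  unfold op; rw [fu_swap, sw_swap]

lemma cl_swap (w : ℤ → ℝ) (p q : ℤ × ℤ) : cl w p.swap q.swap = cl w p q := by
  unfold cl; rw [fu_swap, sw_swap]

lemma cl_swap_left (w : ℤ → ℝ) (p q : ℤ × ℤ) : cl w p.swap q = cl w p q := by
  unfold cl; rw [fu_swap_left, sw_swap_left, min_comm]

lemma cl_swap_right (w : ℤ → ℝ) (p q : ℤ × ℤ) : cl w p q.swap = cl w p q := by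
  unfold cl; rw [fu_swap_right, sw_swap_right, min_comm]

variable {E : Type*} [Fintype V] [Fintype E] [DecidableEq E] {s t : E → V}

/-- the weight of two copies and of the set of open edges (both copies have the site weights
`a`) -/
noncomputable def WP (s t : E → V) (w : E → ℤ → ℝ) (a : V → ℤ → ℝ) (H : V → ℤ × ℤ)
    (S : Finset E) : ℝ :=
  (∏ e ∈ S, op (w e) (H (s e)) (H (t e))) * (∏ e ∈ Sᶜ, cl (w e) (H (s e)) (H (t e))) *
    ∏ x, a x (H x).1 * a x (H x).2

/-- the weight of one copy -/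
noncomputable def wt (s t : E → V) (w : E → ℤ → ℝ) (a : V → ℤ → ℝ) (h : V → ℤ) : ℝ :=
  (∏ e, w e (h (t e) - h (s e))) * ∏ x, a x (h x)

lemma sum_WP (w : E → ℤ → ℝ) (a : V → ℤ → ℝ) (H : V → ℤ × ℤ) :
    ∑ S, WP s t w a H S = wt s t w a (fun x => (H x).1) * wt s t w a fun x => (H x).2 := by
  unfold WP wt
  rw [← Finset.sum_mul]
  have h1 : ∑ S : Finset E, (∏ e ∈ S, op (w e) (H (s e)) (H (t e))) *
      ∏ e ∈ Sᶜ, cl (w e) (H (s e)) (H (t e)) = ∏ e, fu (w e) (H (s e)) (H (t e)) := by
    have := sum_bw (fun e => op (w e) (H (s e)) (H (t e))) fun e =>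
      cl (w e) (H (s e)) (H (t e))
    unfold bw at this
    rw [this]
    exact Finset.prod_congr rfl fun e _ => op_add_cl _ _ _
  rw [h1]
  unfold fu
  rw [Finset.prod_mul_distrib, Finset.prod_mul_distrib]
  ring

lemma WP_nonneg {w : E → ℤ → ℝ} (hw : ∀ e n, 0 ≤ w e n) {a : V → ℤ → ℝ} (ha : ∀ x n, 0 ≤ a x n)
    (H : V → ℤ × ℤ) (S : Finset E) : 0 ≤ WP s t w a H S :=
  mul_nonneg (mul_nonneg (Finset.prod_nonneg fun e _ => op_nonneg _ _ _)
    (Finset.prod_nonneg fun e _ => cl_nonneg (hw e) _ _))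
    (Finset.prod_nonneg fun x _ => mul_nonneg (ha _ _) (ha _ _))

/-- **swap**: the weight is invariant under the exchange of the copies on a closed set -/
theorem WP_fl (w : E → ℤ → ℝ) (a : V → ℤ → ℝ) {S : Finset E} {C : Set V} (hC : Cld s t S C)
    (H : V → ℤ × ℤ) : WP s t w a (fl C H) S = WP s t w a H S := by
  unfold WP
  congr 1
  · congr 1
    · refine Finset.prod_congr rfl fun e he => ?_
      by_cases h : s e ∈ C
      · rw [fl_mem h, fl_mem ((hC e he).1 h), op_swap]
      · rw [fl_not h, fl_not fun h' => h ((hC e he).2 h')]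
    · refine Finset.prod_congr rfl fun e _ => ?_
      by_cases h : s e ∈ C <;> by_cases h' : t e ∈ C
      · rw [fl_mem h, fl_mem h', cl_swap]
      · rw [fl_mem h, fl_not h', cl_swap_left]
      · rw [fl_not h, fl_mem h', cl_swap_right]
      · rw [fl_not h, fl_not h']
  · refine Finset.prod_congr rfl fun x _ => ?_
    by_cases h : x ∈ C
    · rw [fl_mem h]
      simp only [Prod.fst_swap, Prod.snd_swap]
      ring
    · rw [fl_not h]

/-- change of variables -/
theorem tsum_fl (w : E → ℤ → ℝ) (a : V → ℤ → ℝ) {S : Finset E} {C : Set V}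
    (hC : Cld s t S C) (Φ : (V → ℤ × ℤ) → ℝ) :
    ∑' H, WP s t w a H S * Φ (fl C H) = ∑' H, WP s t w a H S * Φ H := by
  rw [← (flE C).tsum_eq fun H => WP s t w a H S * Φ H]
  refine tsum_congr fun H => ?_
  show _ = WP s t w a (fl C H) S * Φ (fl C H)
  rw [WP_fl w a hC]

/-- an odd functional has mean zero -/
theorem tsum_odd (w : E → ℤ → ℝ) (a : V → ℤ → ℝ) {S : Finset E} {C : Set V}
    (hC : Cld s t S C) {Φ : (V → ℤ × ℤ) → ℝ} (hΦ : ∀ H, Φ (fl C H) = -Φ H) :
    ∑' H, WP s t w a H S * Φ H = 0 := by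
  have h1 := tsum_fl w a hC Φ
  have h2 : ∑' H, WP s t w a H S * Φ (fl C H) = -∑' H, WP s t w a H S * Φ H := by
    rw [← tsum_neg]
    exact tsum_congr fun H => by rw [hΦ]; ring
  linarith

/-- the difference of the copies -/
def df (H : V → ℤ × ℤ) (x : V) : ℝ := ((H x).1 : ℝ) - (H x).2

omit [Fintype V] in
lemma df_fl_mem {C : Set V} {H : V → ℤ × ℤ} {x : V} (h : x ∈ C) : df (fl C H) x = -df H x := by
  unfold df
  rw [fl_mem h]
  simp only [Prod.fst_swap, Prod.snd_swap]
  ring

omit [Fintype V] in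
lemma df_fl_not {C : Set V} {H : V → ℤ × ℤ} {x : V} (h : x ∉ C) : df (fl C H) x = df H x := by
  unfold df
  rw [fl_not h]

/-- `x` is joined to the set `B` -/
def CB (s t : E → V) (S : Finset E) (B : Set V) (x : V) : Prop := ∃ y ∈ B, Cn s t S x y

/-- `A` depends on the heights in `B` only -/
def Loc (B : Set V) (A : (V → ℤ × ℤ) → ℝ) : Prop :=
  ∀ H K : V → ℤ × ℤ, (∀ x ∈ B, H x = K x) → A H = A K

/-- a vertex whose cluster does not meet `B` does not contribute -/
theorem tsum_far (w : E → ℤ → ℝ) (a : V → ℤ → ℝ) {S : Finset E} {B : Set V}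
    {A : (V → ℤ × ℤ) → ℝ} (hA : Loc B A) {x : V} (hx : ¬ CB s t S B x) :
    ∑' H, WP s t w a H S * (A H * df H x) = 0 := by
  refine tsum_odd w a (cld_cluster S x) fun H => ?_
  have h1 : A (fl {y | Cn s t S x y} H) = A H := hA _ _ fun y hy =>
    fl_not fun h => hx ⟨y, hy, h⟩
  rw [h1, df_fl_mem (show x ∈ {y | Cn s t S x y} from Cn.refl S x)]
  ring

open Classical in
/-- **E5, exact form**: only the clusters which meet `B` contribute -/
theorem influence_eq (w : E → ℤ → ℝ) (a : V → ℤ → ℝ) {B : Set V} {A : (V → ℤ × ℤ) → ℝ}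
    (hA : Loc B A) (g : V → ℝ)
    (hs : ∀ S x, Summable fun H => WP s t w a H S * (A H * df H x)) :
    ∑' H, ∑ S, WP s t w a H S * (A H * ∑ x, g x * df H x) =
      ∑' H, ∑ S, WP s t w a H S *
        (A H * ∑ x, if CB s t S B x then g x * df H x else 0) := by
  have e1 : ∀ H, ∑ S, WP s t w a H S * (A H * ∑ x, g x * df H x) =
      ∑ S : Finset E, ∑ x : V, g x * (WP s t w a H S * (A H * df H x)) := by
    intro H
    refine Finset.sum_congr rfl fun S _ => ?_
    rw [Finset.mul_sum, Finset.mul_sum]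
    exact Finset.sum_congr rfl fun x _ => by ring
  have e2 : ∀ H, ∑ S, WP s t w a H S *
        (A H * ∑ x, if CB s t S B x then g x * df H x else 0) =
      ∑ S : Finset E, ∑ x : V, (if CB s t S B x then g x else 0) *
        (WP s t w a H S * (A H * df H x)) := by
    intro H
    refine Finset.sum_congr rfl fun S _ => ?_
    rw [Finset.mul_sum, Finset.mul_sum]
    refine Finset.sum_congr rfl fun x _ => ?_
    split_ifs <;> ring
  rw [tsum_congr e1, tsum_congr e2]
  rw [Summable.tsum_finsetSum fun S _ => summable_sum fun x _ => (hs S x).mul_left _,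
    Summable.tsum_finsetSum fun S _ => summable_sum fun x _ => (hs S x).mul_left _]
  refine Finset.sum_congr rfl fun S _ => ?_
  rw [Summable.tsum_finsetSum fun x _ => (hs S x).mul_left _,
    Summable.tsum_finsetSum fun x _ => (hs S x).mul_left _]
  refine Finset.sum_congr rfl fun x _ => ?_
  rw [tsum_mul_left, tsum_mul_left]
  split_ifs with h
  · rfl
  · rw [tsum_far w a hA h]
    ring

open Classical in
/-- **E5** -/
theorem influence_le {w : E → ℤ → ℝ} (hw : ∀ e n, 0 ≤ w e n) {a : V → ℤ → ℝ}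
    (ha : ∀ x n, 0 ≤ a x n) {B : Set V} {A : (V → ℤ × ℤ) → ℝ} (hA : Loc B A) (g : V → ℝ)
    (hs : ∀ S x, Summable fun H => WP s t w a H S * (A H * df H x)) :
    |∑' H, ∑ S, WP s t w a H S * (A H * ∑ x, g x * df H x)| ≤
      ∑' H, ∑ S, WP s t w a H S *
        (|A H| * ∑ x, if CB s t S B x then |g x| * |df H x| else 0) := by
  rw [influence_eq w a hA g hs]
  have hs' : Summable fun H => ∑ S, WP s t w a H S *
        (|A H| * ∑ x, if CB s t S B x then |g x| * |df H x| else 0) := by
    refine summable_sum fun S _ => ?_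
    have e : ∀ H, WP s t w a H S *
        (|A H| * ∑ x, if CB s t S B x then |g x| * |df H x| else 0) =
        ∑ x : V, (if CB s t S B x then |g x| else 0) *
          |WP s t w a H S * (A H * df H x)| := by
      intro H
      rw [Finset.mul_sum, Finset.mul_sum]
      refine Finset.sum_congr rfl fun x _ => ?_
      rw [abs_mul, abs_mul, abs_of_nonneg (WP_nonneg hw ha H S)]
      split_ifs <;> ring
    simp only [e]
    exact summable_sum fun x _ => (hs S x).abs.mul_left _
  have hb : ∀ H, |∑ S, WP s t w a H S *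
        (A H * ∑ x, if CB s t S B x then g x * df H x else 0)| ≤
      ∑ S, WP s t w a H S *
        (|A H| * ∑ x, if CB s t S B x then |g x| * |df H x| else 0) := by
    intro H
    refine (Finset.abs_sum_le_sum_abs _ _).trans (Finset.sum_le_sum fun S _ => ?_)
    rw [abs_mul, abs_mul, abs_of_nonneg (WP_nonneg hw ha H S)]
    refine mul_le_mul_of_nonneg_left ?_ (WP_nonneg hw ha H S)
    refine mul_le_mul_of_nonneg_left ?_ (abs_nonneg _)
    refine (Finset.abs_sum_le_sum_abs _ _).trans (Finset.sum_le_sum fun x _ => ?_)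
    split_ifs
    · rw [abs_mul]
    · rw [abs_zero]
  have hn : Summable fun H => ‖∑ S, WP s t w a H S *
        (A H * ∑ x, if CB s t S B x then g x * df H x else 0)‖ :=
    Summable.of_nonneg_of_le (fun H => norm_nonneg _) (fun H => by
      rw [Real.norm_eq_abs]; exact hb H) hs'
  calc |∑' H, ∑ S, WP s t w a H S *
        (A H * ∑ x, if CB s t S B x then g x * df H x else 0)|
      ≤ ∑' H, ‖∑ S, WP s t w a H S *
        (A H * ∑ x, if CB s t S B x then g x * df H x else 0)‖ := by
        rw [← Real.norm_eq_abs]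
        exact norm_tsum_le_tsum_norm hn
    _ ≤ _ := hn.tsum_le_tsum (fun H => by rw [Real.norm_eq_abs]; exact hb H) hs'

/-! ### covariances -/

/-- pairs of configurations -/
def prE (V : Type*) : (V → ℤ × ℤ) ≃ (V → ℤ) × (V → ℤ) :=
  { toFun := fun H => (fun x => (H x).1, fun x => (H x).2)
    invFun := fun h x => (h.1 x, h.2 x)
    left_inv := fun _ => rfl
    right_inv := fun _ => rfl }

/-- the covariance as a sum over pairs, abstract -/
theorem cov_two {α : Type*} {u F G : α → ℝ} (s0 : Summable u) (sF : Summable fun h => u h * F h)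
    (sG : Summable fun h => u h * G h) (sFG : Summable fun h => u h * (F h * G h)) :
    ∑' h : α × α, u h.1 * u h.2 * ((F h.1 - F h.2) * (G h.1 - G h.2)) =
      2 * ((∑' h, u h) * (∑' h, u h * (F h * G h)) - (∑' h, u h * F h) * ∑' h, u h * G h) := by
  have m : ∀ {f g : α → ℝ}, Summable f → Summable g →
      HasSum (fun x : α × α => f x.1 * g x.2) ((∑' h, f h) * ∑' h, g h) := by
    intro f g hf hg
    exact hf.hasSum.mul hg.hasSum (summable_mul_of_summable_norm hf.norm hg.norm)
  have p1 := m sFG s0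
  have p2 := m s0 sFG
  have p3 := m sF sG
  have p4 := m sG sF
  have p := ((p1.add p2).sub p3).sub p4
  have e2 : (fun h : α × α => u h.1 * u h.2 * ((F h.1 - F h.2) * (G h.1 - G h.2))) =
      fun h => u h.1 * (F h.1 * G h.1) * u h.2 + u h.1 * (u h.2 * (F h.2 * G h.2)) -
      u h.1 * F h.1 * (u h.2 * G h.2) - u h.1 * G h.1 * (u h.2 * F h.2) := by
    funext h; ring
  rw [e2]
  rw [p.tsum_eq]
  ring

/-- the covariance as a sum over pairs -/
theorem cov_pairs {w : E → ℤ → ℝ} {a : V → ℤ → ℝ} {F G : (V → ℤ) → ℝ}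
    (s0 : Summable (wt s t w a)) (sF : Summable fun h => wt s t w a h * F h)
    (sG : Summable fun h => wt s t w a h * G h)
    (sFG : Summable fun h => wt s t w a h * (F h * G h)) :
    ∑' H : V → ℤ × ℤ, ∑ S, WP s t w a H S *
        ((F (fun x => (H x).1) - F fun x => (H x).2) *
          (G (fun x => (H x).1) - G fun x => (H x).2)) =
      2 * ((∑' h, wt s t w a h) * (∑' h, wt s t w a h * (F h * G h)) -
        (∑' h, wt s t w a h * F h) * ∑' h, wt s t w a h * G h) := by
  rw [← cov_two s0 sF sG sFG]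
  rw [← (prE V).tsum_eq fun h : (V → ℤ) × (V → ℤ) => wt s t w a h.1 *
    wt s t w a h.2 * ((F h.1 - F h.2) * (G h.1 - G h.2))]
  refine tsum_congr fun H => ?_
  rw [← Finset.sum_mul, sum_WP]
  rfl

open Classical in
/-- **E5 for one copy**: the covariance of a functional `F` of the heights in `B` with
`⟨g, h⟩` -/
theorem cov_influence {w : E → ℤ → ℝ} (hw : ∀ e n, 0 ≤ w e n) {a : V → ℤ → ℝ}
    (ha : ∀ x n, 0 ≤ a x n) {B : Set V} {F : (V → ℤ) → ℝ}
    (hF : ∀ h k : V → ℤ, (∀ x ∈ B, h x = k x) → F h = F k) (g : V → ℝ)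
    (s0 : Summable (wt s t w a)) (sF : Summable fun h => wt s t w a h * F h)
    (sx : ∀ x, Summable fun h => wt s t w a h * (h x : ℝ))
    (sFx : ∀ x, Summable fun h => wt s t w a h * (F h * (h x : ℝ))) :
    |(∑' h, wt s t w a h) * (∑' h, wt s t w a h * (F h * ∑ x, g x * (h x : ℝ))) -
        (∑' h, wt s t w a h * F h) * ∑' h, wt s t w a h * ∑ x, g x * (h x : ℝ)| ≤
      (1 / 2) * ∑' H : V → ℤ × ℤ, ∑ S, WP s t w a H S *
        (|F (fun x => (H x).1) - F fun x => (H x).2| *
          ∑ x, if CB s t S B x then |g x| * |df H x| else 0) := by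
  have sG : Summable fun h => wt s t w a h * ∑ x, g x * (h x : ℝ) := by
    have e : ∀ h : V → ℤ, wt s t w a h * ∑ x, g x * (h x : ℝ) =
        ∑ x, g x * (wt s t w a h * (h x : ℝ)) := fun h => by
      rw [Finset.mul_sum]; exact Finset.sum_congr rfl fun x _ => by ring
    simp only [e]
    exact summable_sum fun x _ => (sx x).mul_left _
  have sFG : Summable fun h => wt s t w a h * (F h * ∑ x, g x * (h x : ℝ)) := by
    have e : ∀ h : V → ℤ, wt s t w a h * (F h * ∑ x, g x * (h x : ℝ)) =
        ∑ x, g x * (wt s t w a h * (F h * (h x : ℝ))) := fun h => by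
      rw [Finset.mul_sum, Finset.mul_sum]; exact Finset.sum_congr rfl fun x _ => by ring
    simp only [e]
    exact summable_sum fun x _ => (sFx x).mul_left _
  have hc := cov_pairs (s := s) (t := t) s0 sF sG sFG
  have hA : Loc B fun H : V → ℤ × ℤ => F (fun x => (H x).1) - F fun x => (H x).2 := by
    intro H K h
    show F (fun x => (H x).1) - F (fun x => (H x).2) = F (fun x => (K x).1) - F fun x => (K x).2
    rw [hF (fun x => (H x).1) (fun x => (K x).1) fun x hx => by rw [h x hx],
      hF (fun x => (H x).2) (fun x => (K x).2) fun x hx => by rw [h x hx]]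
  -- summability for the pairs
  have hs : ∀ S x, Summable fun H : V → ℤ × ℤ => WP s t w a H S *
      ((F (fun x => (H x).1) - F fun x => (H x).2) * df H x) := by
    intro S x
    have wn : ∀ h, 0 ≤ wt s t w a h := fun h =>
      mul_nonneg (Finset.prod_nonneg fun e _ => hw _ _) (Finset.prod_nonneg fun x _ => ha _ _)
    have n : ∀ {f : (V → ℤ) → ℝ}, Summable f → Summable fun h => ‖f h‖ := fun h => h.norm
    have q1 := summable_mul_of_summable_norm (n (sFx x)) (n s0)
    have q2 := summable_mul_of_summable_norm (n s0) (n (sFx x))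
    have q3 := summable_mul_of_summable_norm (n sF) (n (sx x))
    have q4 := summable_mul_of_summable_norm (n (sx x)) (n sF)
    have q : Summable fun h : (V → ℤ) × (V → ℤ) => wt s t w a h.1 * wt s t w a h.2 *
        ((F h.1 - F h.2) * ((h.1 x : ℝ) - h.2 x)) := by
      refine (((q1.add q2).sub q3).sub q4).congr fun h => ?_
      ring
    have q' := (prE V).summable_iff.2 q.abs
    refine Summable.of_norm_bounded q' fun H => ?_
    rw [Real.norm_eq_abs, abs_mul, abs_of_nonneg (WP_nonneg hw ha H S)]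
    have h1 : WP s t w a H S ≤ wt s t w a (fun x => (H x).1) * wt s t w a fun x => (H x).2 := by
      rw [← sum_WP]
      exact Finset.single_le_sum (fun S _ => WP_nonneg hw ha H S) (Finset.mem_univ S)
    refine (mul_le_mul_of_nonneg_right h1 (abs_nonneg _)).trans (le_of_eq ?_)
    show _ = |wt s t w a (fun x => (H x).1) * wt s t w a (fun x => (H x).2) *
        ((F (fun x => (H x).1) - F (fun x => (H x).2)) * (((H x).1 : ℝ) - (H x).2))|
    rw [abs_mul (wt s t w a (fun x => (H x).1) * wt s t w a (fun x => (H x).2)),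
      abs_of_nonneg (mul_nonneg (wn _) (wn _))]
    rfl
  have hi := influence_le (s := s) (t := t) hw ha hA g hs
  have e3 : ∀ H : V → ℤ × ℤ, (∑ x, g x * ((H x).1 : ℝ)) - ∑ x, g x * ((H x).2 : ℝ) =
      ∑ x, g x * df H x := fun H => by
    rw [← Finset.sum_sub_distrib]
    exact Finset.sum_congr rfl fun x _ => by unfold df; ring
  simp only [e3] at hc
  rw [hc, abs_mul, abs_of_pos (two_pos : (0 : ℝ) < 2)] at hi
  linarith

end swap

end Vale.Agent.P159.TM.H426
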